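import Crest.Agent.X212.Lk34.Tci
import Crest.Agent.X212.Kb50.Tr
import Crest.Agent.X212.Lxd19.Br0

/-!
# Row 212, LIX-KER (helper34), part Fz: the two decaying solutions
-/

set_option autoImplicit false
set_option linter.unusedSectionVars false
noncomputable section
open Set Function Filter Topology MeasureTheory
open scoped ContDiff Manifold Real InnerProductSpace

namespace Crest.Agent.X212.Lk34
open An Nd18 Sob92 Wz78 Lns95 Lix26 Num57
open M (Mf)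

variable {E : Type} [NormedAddCommGroup E] [NormedSpace ℝ E] [FiniteDimensional ℝ E]
  [MeasurableSpace E] [BorelSpace E]
  {HM : Type} [TopologicalSpace HM] {I : ModelWithCorners ℝ E HM} [I.Boundaryless]
  {M : Type} [TopologicalSpace M] [ChartedSpace HM M] [IsManifold I ∞ M] [T2Space M]
  [MeasurableSpace M] [BorelSpace M] [SecondCountableTopology M]
  {Y : Mf 3} [CompactSpace Y.M] {κ : Type} [Fintype κ] {lam : Type} [Fintype lam]
  [DecidableEq lam] {D : YD Y.I Y.M κ (lam ⊕ lam)} {B : Base M (Option κ) (lam ⊕ lam)}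
  {G : Geo I M (Option κ) (lam ⊕ lam)} {K : Nk D B G} {Ω : Set M} {d : Mdl K Ω}
  {g Q Φ : ℝ → ℝ} {b : Bool} {y : M}

variable (d Φ) in
/-- the kernel form -/
def kf (b : Bool) (a : Option κ) (y : M) : ℂ := (Real.exp (-Φ (xx d.Ds y)) : ℂ) * th d.Ds G.F.e b a y

theorem ext0 {f : M → ℝ} {c : ℝ} (hy : y ∈ d.Ds.O b) (h : ContinuousAt f y)
    (e : ∀ z ∈ d.Ds.O b, d.Ds.w b z ≠ 0 → f z = c) : f y = c :=
  tendsto_nhds_unique_of_frequently_eq h.tendsto tendsto_const_nhds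
    (((d.Ds.ch b).dense hy).mono fun z hz => e z hz.1 hz.2)

theorem asd0 {U : Fin 4 → Option κ → ℝ} (h : Ox B y U) {k : Option κ × Option κ → ℝ} {α β : ℝ}
    (hk : ∀ s, k s = α * (wq U 0 2 s.1 s.2 - wq U 3 1 s.1 s.2) +
      β * (wq U 0 3 s.1 s.2 - wq U 1 2 s.1 s.2)) (t : Option κ × Option κ) :
    ∑ s, B.sd y t s * k s = 0 := by
  rw [sd_sum h]
  simp [hk, Fin.sum_univ_three, sdb, add_mul, mul_add, mul_sub, Finset.sum_add_distrib,
    Finset.sum_sub_distrib, mul_left_comm _ α, mul_left_comm _ β, ← Finset.mul_sum, wq_wq h.toOn0]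

variable (d Φ) in
/-- the real and imaginary parts -/
abbrev kv (b : Bool) (i : Fin 4) (a : Option κ) (y : M) : ℝ :=
  Real.exp (-Φ (xx d.Ds y)) * d.Ds.V d.P d.h G.F.e b i a y

theorem kf_re (hy : y ∈ d.Ds.O b) (a : Option κ) : (kf d Φ b a y).re = kv d Φ b 2 a y := by
  rw [kf, Complex.re_ofReal_mul, th_re hy]

theorem kf_im (hy : y ∈ d.Ds.O b) (a : Option κ) : (kf d Φ b a y).im = kv d Φ b 3 a y := by
  rw [kf, Complex.im_ofReal_mul, th_im hy]

variable (ok : d.OK) (r : Rf d.P d.h (xx d.Ds '' Ω) g Q Φ)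
include ok

theorem th_sq (hy : y ∈ d.Ds.O b) : ∑ a, ‖th d.Ds G.F.e b a y‖ ^ 2 = 2 := by
  have F := gfrm ok.mo.hG
  have e : ∀ z ∈ d.Ds.O b, ∑ a, ‖th d.Ds G.F.e b a z‖ ^ 2 = ∑ a, (d.Ds.V d.P d.h G.F.e b 2 a z *
      d.Ds.V d.P d.h G.F.e b 2 a z + d.Ds.V d.P d.h G.F.e b 3 a z * d.Ds.V d.P d.h G.F.e b 3 a z) :=
    fun z hz => Finset.sum_congr rfl fun a _ => by
      rw [← Complex.normSq_eq_norm_sq, Complex.normSq_apply, th_re hz, th_im hz]
  have s2 := fun a => (sa_V2 F hy d.P d.h a).continuousAt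
  have s3 := fun a => (sa_V3 F hy d.P d.h a).continuousAt
  rw [e y hy]
  refine ext0 (f := fun z => ∑ a, (d.Ds.V d.P d.h G.F.e b 2 a z *
      d.Ds.V d.P d.h G.F.e b 2 a z + d.Ds.V d.P d.h G.F.e b 3 a z * d.Ds.V d.P d.h G.F.e b 3 a z))
    hy (by fun_prop) fun z hz h0 => ?_
  have := (ok.mo.on0 hz h0).on
  simp only [Finset.sum_add_distrib, this]
  norm_num

theorem kf_sq (hy : y ∈ d.Ds.O b) : ∑ a, ‖kf d Φ b a y‖ ^ 2 = 2 * Real.exp (-Φ (xx d.Ds y)) ^ 2 := by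
  simp only [kf, norm_mul, mul_pow, ← Finset.mul_sum, th_sq ok hy, Complex.norm_real,
    Real.norm_eq_abs, sq_abs]
  ring

include r

omit ok in
theorem sa_φ (hy : y ∈ d.Ds.O b) : SA I (fun y => Real.exp (-Φ (xx d.Ds y))) y :=
  ((r.sΦ _ ⟨y, d.Ds.sub b hy, rfl⟩).neg.exp).comp_contMDiffAt (f := xx d.Ds) (sa_xx hy)

theorem kf_int {ψ : M → ℝ} {δ : ℝ} (hp : K.p = some 0) (hq : K.q = none) (h0 : 0 < δ) (h1 : δ ≤ Cht98.dl0)
    (c : Continuous ψ) (hψ : ∀ x ∈ Ω, ψ x = δ * K.τ x) :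
    IntegrableOn (fun x => Real.exp (2 * ψ x) * (2 * Real.exp (-Φ (xx d.Ds x)) ^ 2)) Ω G.F.μ := by
  obtain ⟨C, hC⟩ := decay ok r
  have d1 : δ ≤ 1 := h1.trans (by
    have := (bd_dtf.choose_spec none none).nonneg 0
    exact inv_le_one_of_one_le₀ (by linarith))
  refine ok.ins.one.int (δ := 2) (C := 2 * C ^ 2) (fun y hy => ?_) two_pos fun y hy => ?_
  · obtain ⟨b, hb⟩ := (d.Ds.cov y).1 hy
    have := (sa_φ r hb).continuousAt
    exact ContinuousAt.continuousWithinAt (by fun_prop)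
  · rw [one_mul] at hy ⊢
    have t : K.τ y ≤ K.tm y := by
      have := mul_nonneg hy.le (sub_nonneg.2 (Real.smoothTransition.le_one (2 * K.tm y - 1)))
      simpa [Nk.τ, hp, hq, tf, fl] using this
    have k := pow_le_pow_left₀ (Real.exp_pos _).le (hC y hy).2 2
    have l : Real.exp (2 * ψ y) ≤ Real.exp (2 * K.tm y) := Real.exp_le_exp.2 (by
      rw [hψ y ((en ok).mem hy)]; nlinarith)
    rw [Real.norm_of_nonneg (by positivity)]
    refine (mul_le_mul l (mul_le_mul_of_nonneg_left k zero_le_two) (by positivity)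
      (by positivity)).trans_eq ?_
    rw [mul_pow, ← Real.exp_nat_mul, mul_left_comm, mul_left_comm (Real.exp _), ← Real.exp_add,
      mul_assoc]
    congr 3
    push_cast; ring

theorem sa_kv (hy : y ∈ d.Ds.O b) (a : Option κ) : SA I (kv d Φ b 2 a) y ∧ SA I (kv d Φ b 3 a) y :=
  ⟨SA.mul (sa_φ r hy) (sa_V2 (gfrm ok.mo.hG) hy _ _ a),
    SA.mul (sa_φ r hy) (sa_V3 (gfrm ok.mo.hG) hy _ _ a)⟩

theorem sa_kf (hy : y ∈ d.Ds.O b) (a : Option κ) : SA I (kf d Φ b a) y :=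
  ((SA.clm Complex.ofRealCLM (sa_kv ok r hy a).1).add (SA.mul (SA.clm Complex.ofRealCLM
    (sa_kv ok r hy a).2) (contMDiffAt_const (c := Complex.I)))).congr_of_eventuallyEq
    (((d.Ds.ch b).op.eventually_mem hy).mono fun z hz => by
      refine (Complex.re_add_im _).symm.trans ?_
      rw [kf_re hz, kf_im hz]; rfl)

theorem dv_kf (hy : y ∈ d.Ds.O b) (a k : Option κ) :
    (dv I (G.F.e k) (kf d Φ b a) y).re = dv I (G.F.e k) (kv d Φ b 2 a) y ∧
      (dv I (G.F.e k) (kf d Φ b a) y).im = dv I (G.F.e k) (kv d Φ b 3 a) y :=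
  have o := (d.Ds.ch b).op.eventually_mem hy
  ⟨(dv_re (sa_kf ok r hy a) _).symm.trans (dv_congr (o.mono fun _ hz => kf_re hz a)),
    (dv_im (sa_kf ok r hy a) _).symm.trans (dv_congr (o.mono fun _ hz => kf_im hz a))⟩

theorem loc (hy : y ∈ d.Ds.O b) (h0 : d.Ds.w b y ≠ 0) : ∃ γ : ℝ, ∀ a,
    dv I (G.F.e a) (fun y => Real.exp (-Φ (xx d.Ds y))) y =
      -γ * Real.exp (-Φ (xx d.Ds y)) * d.Ds.V d.P d.h G.F.e b 0 a y ∧
    a0 d g Q b a y = γ * d.Ds.V d.P d.h G.F.e b 1 a y - 2 * mu I G.F.e (d.Ds.u b) a y := by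
  have f0 := (ok.mo.pr b y hy h0).pf.ne'
  refine ⟨(2 - 2 * Real.exp (-2 * g (‖d.Ds.w b y‖ ^ 2))) / d.P.f (‖d.Ds.w b y‖ ^ 2), fun a => ⟨?_, ?_⟩⟩
  · rw [dv_congr ((xx_ev hy).mono fun z hz => congrArg (fun t => Real.exp (-Φ t)) hz), xx_eq hy,
      dv_x (φ := fun t => Real.exp (-Φ t)) ((d.Ds.ch b).sw y hy)
        (r.dΦ _ (mem_R hy) (by simpa)).neg.exp]
    simp only [Dsc.V, vG, Matrix.cons_val, Pi.neg_apply]
    ring
  · rw [a0, pt_eq hy h0 (hq0 r _ (mem_R hy))]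
    simp only [Dsc.V, vG, Matrix.cons_val, sg1]
    field_simp
    push_cast
    ring

omit r in
theorem ct {p q A : Option κ → M → ℝ} (hp : ∀ a, SA I (p a) y) (hq : ∀ a, SA I (q a) y)
    (hA : ∀ a, SA I (A a) y) (σ : ℝ) : (∀ t, ContinuousAt (fun y => ∑ s, B.sd y t s *
      (d1 I G.F.e G.F.c p s.1 s.2 y + σ * (A s.1 y * q s.2 y - A s.2 y * q s.1 y))) y) ∧
    ContinuousAt (fun y => ∑ a, (dv I (G.F.e a) (p a) y + G.F.dv a y * p a y + σ * (A a y * q a y))) y := by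
  have F := gfrm ok.mo.hG
  have c0 := fun a => (G.F.dv_sm a y).continuousAt
  have c1 := fun t s => (ct_sd ok.mo.hB t s).continuousAt (x := y)
  have c2 := fun a => (hA a).continuousAt
  have c3 := fun a => (hp a).continuousAt
  have c4 := fun a => (hq a).continuousAt
  have c5 := fun a k => (F.sD k (hp a)).continuousAt
  have c7 := fun a c k => (F.sc a c k y).continuousAt
  exact ⟨fun t => by unfold d1; fun_prop, by fun_prop⟩

theorem eq_c (hy : y ∈ d.Ds.O b) (t : Option κ × Option κ) :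
    ∑ s, B.sd y t s * (d1 I G.F.e G.F.c (kv d Φ b 2) s.1 s.2 y + -1 * (a0 d g Q b s.1 y *
      kv d Φ b 3 s.2 y - a0 d g Q b s.2 y * kv d Φ b 3 s.1 y)) = 0 ∧
    ∑ s, B.sd y t s * (d1 I G.F.e G.F.c (kv d Φ b 3) s.1 s.2 y + 1 * (a0 d g Q b s.1 y *
      kv d Φ b 2 s.2 y - a0 d g Q b s.2 y * kv d Φ b 2 s.1 y)) = 0 := by
  have F := gfrm ok.mo.hG
  have s2 := fun a => (sa_kv ok r hy a).1
  have s3 := fun a => (sa_kv ok r hy a).2
  have k1 := ext0 (c := 0) hy ((ct ok s2 s3 (sa_a0 ok r hy) (-1)).1 t)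
  have k2 := ext0 (c := 0) hy ((ct ok s3 s2 (sa_a0 ok r hy) 1).1 t)
  refine ⟨k1 fun z hz h0 => ?_, k2 fun z hz h0 => ?_⟩ <;>
    obtain ⟨γ, h⟩ := loc ok r hz h0
  · refine asd0 (ok.mo.ox hz h0) (α := -γ * Real.exp (-Φ (xx d.Ds z))) (β := 0) (fun s => ?_) t
    rw [d1_mul (sa_φ r hz) (sa_V2 F hz _ _), (ok.mo.cz b).d2 z ⟨hz, h0⟩]
    simp only [kv, h, wq]; ring
  · refine asd0 (ok.mo.ox hz h0) (β := -γ * Real.exp (-Φ (xx d.Ds z))) (α := 0) (fun s => ?_) t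
    rw [d1_mul (sa_φ r hz) (sa_V3 F hz _ _), (ok.mo.cz b).d3 z ⟨hz, h0⟩]
    simp only [kv, h, wq]; ring

theorem eq_r (hy : y ∈ d.Ds.O b) :
    ∑ a, (dv I (G.F.e a) (kv d Φ b 2 a) y + G.F.dv a y * kv d Φ b 2 a y +
      -1 * (a0 d g Q b a y * kv d Φ b 3 a y)) = 0 ∧
    ∑ a, (dv I (G.F.e a) (kv d Φ b 3 a) y + G.F.dv a y * kv d Φ b 3 a y +
      1 * (a0 d g Q b a y * kv d Φ b 2 a y)) = 0 := by
  have F := gfrm ok.mo.hG
  have L := glc ok.mo.hG
  have s2 := fun a => (sa_kv ok r hy a).1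
  have s3 := fun a => (sa_kv ok r hy a).2
  have k : ∀ z ∈ d.Ds.O b, d.Ds.w b z ≠ 0 → ∀ i, ∑ a, (dv I (G.F.e a) (d.Ds.V d.P d.h G.F.e b i a) z
      + G.F.dv a z * d.Ds.V d.P d.h G.F.e b i a z) =
      ∑ a, cv0 I G.F.e G.F.Gam (d.Ds.V d.P d.h G.F.e b i) a a z := fun z hz h0 i => by
    have := L.div_sum F (dv_gam ok.mo.hG.vol z) (on_PU (ok.mo.on0 hz h0) i)
    simp only [smul_eq_mul] at this
    simp only [cv0, Finset.sum_sub_distrib, Finset.sum_add_distrib, this, sub_neg_eq_add]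
  have k1 := ext0 (c := 0) hy (ct ok s2 s3 (sa_a0 ok r hy) (-1)).2
  have k2 := ext0 (c := 0) hy (ct ok s3 s2 (sa_a0 ok r hy) 1).2
  refine ⟨k1 fun z hz h0 => ?_, k2 fun z hz h0 => ?_⟩ <;>
    obtain ⟨γ, h⟩ := loc ok r hz h0 <;> have o := (ok.mo.on0 hz h0).on <;>
    have v := (ok.mo.cz b).cv ⟨hz, h0⟩ L F (gsep ok.mo.hG)
  · have e := k z hz h0 2
    have o1 := o 0 2
    have o2 := o 1 3
    simp only [v, Lns95.cn, Fin.sum_univ_four, Matrix.cons_val] at e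
    unfold kv
    simp only [dv_mul (sa_φ r hz) (sa_V2 F hz _ _ _), h]
    rw [← sub_eq_zero, ← Finset.sum_sub_distrib] at e
    rw [if_neg (by decide)] at o1 o2
    have := congrArg₂ (fun s t => Real.exp (-Φ (xx d.Ds z)) * (s - t)) e (congrArg₂ (fun s t =>
      γ * s + (γ - 2 * d.P.f (‖d.Ds.w b z‖ ^ 2)) * t) o1 o2)
    simp only [Finset.mul_sum, ← Finset.sum_sub_distrib, ← Finset.sum_add_distrib] at this
    exact (Finset.sum_congr rfl fun a _ => by ring).trans (this.trans (by simp))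
  · have e := k z hz h0 3
    have o1 := o 0 3
    have o2 := o 1 2
    simp only [v, Lns95.cn, Fin.sum_univ_four, Matrix.cons_val] at e
    unfold kv
    simp only [dv_mul (sa_φ r hz) (sa_V3 F hz _ _ _), h]
    rw [← sub_eq_zero, ← Finset.sum_sub_distrib] at e
    rw [if_neg (by decide)] at o1 o2
    have := congrArg₂ (fun s t => Real.exp (-Φ (xx d.Ds z)) * (s - t)) e (congrArg₂ (fun s t =>
      γ * s - (γ - 2 * d.P.f (‖d.Ds.w b z‖ ^ 2)) * t) o1 o2)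
    simp only [Finset.mul_sum, ← Finset.sum_sub_distrib, ← Finset.sum_add_distrib] at this
    exact (Finset.sum_congr rfl fun a _ => by ring).trans (this.trans (by simp))

theorem fz {ψ : M → ℝ} {δ : ℝ} (hp : K.p = some 0) (hq : K.q = none)
    (hψ : ∀ x ∈ Ω, ψ x = δ * K.τ x) (b : Bool) :
    Kb50.Fz B G.F ψ (d.Ds.O b) (a0 d g Q b) (kf d Φ b) := by
  have F := gfrm ok.mo.hG
  refine ⟨fun x hx => sa_kf ok r hx, fun x hx a => Complex.ext ?_ ?_,
    fun x hx t => Complex.ext ?_ ?_, fun x hx => Complex.ext ?_ ?_, fun x hx => ?_⟩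
  · simp only [Complex.re_sum, Complex.smul_re, kf_re hx, kv, smul_eq_mul, mul_left_comm (B.P _ _ x),
      ← Finset.mul_sum]
    exact congrArg _ (by simpa only [Dsc.V, vG, Matrix.cons_val] using pr_wd F _ _ _)
  · simp only [Complex.im_sum, Complex.smul_im, kf_im hx, kv, smul_eq_mul, mul_left_comm (B.P _ _ x),
      ← Finset.mul_sum]
    exact congrArg _ (by simpa only [Dsc.V, vG, Matrix.cons_val] using pr_wd F _ _ _)
  · simpa [d1, dv_kf ok r hx, kf_re hx, kf_im hx, sub_eq_add_neg, mul_add] using (eq_c ok r hx t).1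
  · simpa [d1, dv_kf ok r hx, kf_re hx, kf_im hx, sub_eq_add_neg, mul_add] using (eq_c ok r hx t).2
  · simpa [Pre.D_def, dv_kf ok r hx, kf_re hx, kf_im hx, sub_eq_add_neg] using (eq_r ok r hx).1
  · simpa [Pre.D_def, dv_kf ok r hx, kf_re hx, kf_im hx, sub_eq_add_neg] using (eq_r ok r hx).2
  · have e : ∀ a, G.F.D a ψ x = δ * G.F.D a K.τ x := fun a =>
      (dv_congr ((ok.ins.cl.2.eventually_mem (d.Ds.sub b hx)).mono hψ)).trans
        (congrFun (G.F.D_smul K.sm_τ δ a) x)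
    rw [Fintype.sum_option]
    simp only [e, K.D_τ_some, Pi.zero_apply, mul_zero, zero_smul, Finset.sum_const_zero, add_zero]
    by_cases k : 0 < K.tm x
    · obtain ⟨R, -, -, h⟩ := neck ok
      rw [show kf d Φ b none x = 0 from Complex.ext (by rw [kf_re hx, kv, h b x hx k 2 (by decide)]; simp)
        (by rw [kf_im hx, kv, h b x hx k 3 (by decide)]; simp), smul_zero]
    · obtain ⟨c, hc⟩ := K.τ_const fun h => k (by
        simpa [K.tgt, hp, hq, Jv] using K.dp_sub one_half_pos h)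
      rw [Pre.D_def, dv_congr (v := fun _ => c) hc, dv_const]; simp

omit ok r in
variable (D I M) in
/-- **LIX-KER** -/
theorem ker : Lxd19.KerStmt I M D := by
  intro B G K Ω d c ξ δ ψ G' ok hp hq A e i l h0 h1 w hψ
  have hB := ok.mo.hB
  have hG := ok.mo.hG
  obtain ⟨g, Q, Φ, r⟩ := exists_r ok
  obtain ⟨s, ss, T⟩ := tc ok r A (sl_on hB hG A ok.ins.cl ok.ins.tam.ok e i l)
  obtain ⟨R, -, hR, -⟩ := neck ok
  obtain ⟨x, hx, -⟩ := (hR 1 one_pos).1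
  obtain ⟨b, hb⟩ := (d.Ds.cov x).1 hx
  obtain ⟨v, v0, hv⟩ := Qx_ne hB hG A ss hx
  obtain ⟨η, p⟩ := T.ex hb (ok.ins.sc.2 x hx) hv
  refine Kb50.kw hB hG A.adm.ok A.adm.conn ok.ins.cl w T
    (fun x hx v hv => pg_of_mem ((Qx_iff hB hG A ss hx).1 hv).1) p (norm_ne_zero_iff.2 v0)
    (fz ok r hp hq hψ) (fun b b' y hy a => by rw [kf, kf, mul_assoc, th_chg hy]) _
    (fun b x hx => (kf_sq ok hx).le) (kf_int ok r hp hq h0 h1 w.sm.continuous hψ) ⟨b, x, hb, ?_⟩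
  by_contra! k
  have := kf_sq (Φ := Φ) ok hb
  simp [k, Real.exp_ne_zero] at this

end Crest.Agent.X212.Lk34
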