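import Crest.Agent.X212.Lns95.Cof
import Crest.Agent.R216.ParamInt

/-!
# Row 212, LIX-KER (helper34), part Ode: the radial equations
-/

set_option autoImplicit false
noncomputable section
open scoped ContDiff Topology
open Set Filter

namespace Crest.Agent.X212.Lk34
open Lns95

/-- Hadamard's lemma -/
theorem had {f : ℝ → ℝ} (h : ContDiffAt ℝ ∞ f 0) : ContDiffAt ℝ ∞ (dslope f 0) 0 := by
  refine contDiffAt_infty.2 fun n => ?_
  obtain ⟨ε, hε, k⟩ := Metric.eventually_nhds_iff.1 ((contDiffAt_infty.1 h (n + 1)).eventually (by simp))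
  let b : ContDiffBump (0 : ℝ) := ⟨ε / 3, ε / 2, by linarith, by linarith⟩
  have hg : ContDiff ℝ (n + 1 : ℕ) fun x => f (b x * x) := contDiff_iff_contDiffAt.2 fun x => by
    refine ContDiffAt.comp (g := f) x (k ?_) ((b.contDiff.mul contDiff_id).contDiffAt)
    rw [dist_zero_right, norm_mul]
    rcases le_or_gt (ε / 2) ‖x‖ with l | l
    · rw [b.zero_of_le_dist (by simpa using l)]; simpa
    · have : ‖b x‖ ≤ 1 := by rw [Real.norm_of_nonneg b.nonneg]; exact b.le_one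
      nlinarith [norm_nonneg x]
  set g := fun x => f (b x * x)
  have e : f =ᶠ[𝓝 0] g := b.eventuallyEq_one.mono fun x hx => by simp [g, hx]
  have d := (contDiff_succ_iff_deriv (n := n)).1 (by exact_mod_cast hg)
  have i := R216.contDiff_param_integral (n := n) (h := fun x t => deriv g (x * t)) 0 1
    ((show ContDiff ℝ (n : ℕ∞) (deriv g) by exact_mod_cast d.2.2).comp (contDiff_fst.mul contDiff_snd))
  refine (i.contDiffAt (x := 0)).congr_of_eventuallyEq ?_
  filter_upwards [e] with x hx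
  rcases eq_or_ne x 0 with rfl | x0
  · simp [e.deriv_eq]
  · have := intervalIntegral.smul_integral_comp_mul_left (deriv g) (a := 0) (b := 1) x
    rw [mul_zero, mul_one, intervalIntegral.integral_deriv_eq_sub (fun y _ => d.1 y)
      (d.2.2.continuous.intervalIntegrable _ _)] at this
    rw [dslope_of_ne _ x0, slope, hx, e.self_of_nhds, vsub_eq_sub, ← this, sub_zero, inv_smul_smul₀ x0]

/-- primitives on an interval -/
theorem prim {R : Set ℝ} (hR : R.OrdConnected) {k : ℝ → ℝ} (hk : ∀ x ∈ R, ContDiffAt ℝ ∞ k x) {x₀ : ℝ}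
    (h0 : x₀ ∈ R) : ∃ G : ℝ → ℝ, G x₀ = 0 ∧ ∀ x ∈ R, ContDiffAt ℝ ∞ G x ∧ HasDerivAt G (k x) x := by
  let U := {x | ContDiffAt ℝ 1 k x}
  have oU : IsOpen U := isOpen_iff_mem_nhds.2 fun x hx => ContDiffAt.eventually hx (by simp)
  have sU : R ⊆ U := fun x hx => show ContDiffAt ℝ 1 k x from (hk x hx).of_le (by simp)
  have cU : ContinuousOn k U := fun x (hx : ContDiffAt ℝ 1 k x) => hx.continuousAt.continuousWithinAt
  let V := connectedComponentIn U x₀
  have oV : IsOpen V := oU.connectedComponentIn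
  have RV : R ⊆ V := hR.isPreconnected.subset_connectedComponentIn h0 sU
  have cV := cU.mono (connectedComponentIn_subset U x₀)
  have d : ∀ x ∈ V, HasDerivAt (fun y => ∫ t in x₀..y, k t) (k x) x := fun x hx =>
    intervalIntegral.integral_hasDerivAt_right ((cV.mono
      (isPreconnected_connectedComponentIn.ordConnected.uIcc_subset (RV h0) hx)).intervalIntegrable)
      (cV.stronglyMeasurableAtFilter oV x hx) (cV.continuousAt (oV.mem_nhds hx))
  refine ⟨fun y => ∫ t in x₀..y, k t, by simp, fun x hx => ⟨contDiffAt_infty.2 fun n => ?_, d x (RV hx)⟩⟩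
  refine ContDiffAt.of_le ((contDiffAt_succ_iff_hasFDerivAt (n := n)).2 ⟨fun y => .toSpanSingleton ℝ (k y),
    ⟨V, oV.mem_nhds (RV hx), fun y hy => (d y hy).hasFDerivAt⟩, ?_⟩) le_self_add
  exact ((ContinuousLinearMap.smulRightL ℝ ℝ ℝ 1).contDiff.contDiffAt.comp x
    (contDiffAt_infty.1 (hk x hx) n)).congr_of_eventuallyEq (.of_forall fun y => by ext; simp)

/-- the radial functions -/
structure Rf (P : Prf 4) (h : ℝ → ℝ) (R : Set ℝ) (G Q Φ : ℝ → ℝ) : Prop where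
  sG : ∀ x ∈ R, ContDiffAt ℝ ∞ G x
  sQ : ∀ x ∈ R, ContDiffAt ℝ ∞ Q x
  sΦ : ∀ x ∈ R, ContDiffAt ℝ ∞ Φ x
  eQ : ∀ x ∈ R, Q x * x = Real.exp (-2 * G x) - 1
  dG : ∀ x ∈ R, x ≠ 0 → HasDerivAt G (P.f x * h x) x
  dΦ : ∀ x ∈ R, x ≠ 0 → HasDerivAt Φ ((2 - 2 * Real.exp (-2 * G x)) / P.f x * h x) x

theorem exists_rf {P : Prf 4} {h : ℝ → ℝ} {R : Set ℝ} (hR : R.OrdConnected) (ne : R.Nonempty)
    (h0 : ∀ x ∈ R, 0 ≤ x) (pr : ∀ x ∈ R, x ≠ 0 → PrA h P.f P.f1 P.f2 x) {ε : ℝ} (hε : 0 < ε)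
    (hH : EqOn h P.H (Iio ε)) : ∃ G Q Φ, Rf P h R G Q Φ := by
  obtain ⟨x₀, m, z⟩ : ∃ x₀ ∈ R, (0 ∈ R → x₀ = 0) := by
    by_cases k : (0 : ℝ) ∈ R
    exacts [⟨0, k, fun _ => rfl⟩, ⟨_, ne.some_mem, fun l => (k l).elim⟩]
  have pos : ∀ x ∈ R, x ≠ 0 → 0 < x := fun x hx k => (h0 x hx).lt_of_ne' k
  have gl : ∀ {a b : ℝ → ℝ}, (0 ∈ R → ContDiffAt ℝ ∞ a 0) → (∀ x ∈ R, x ≠ 0 → ContDiffAt ℝ ∞ b x) →
      (∀ x ∈ Ioo 0 ε, a x = b x) → ∃ G : ℝ → ℝ, G x₀ = 0 ∧ ∀ x ∈ R, ContDiffAt ℝ ∞ G x ∧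
        (x ≠ 0 → HasDerivAt G (b x) x) := fun {a b} ha hb e => by
    have ev : ∀ x, 0 < x → (fun x => if x < ε then a x else b x) =ᶠ[𝓝 x] b := fun x hx =>
      (eventually_gt_nhds hx).mono fun y hy => by
        by_cases k : y < ε
        · simp [k, e y ⟨hy, k⟩]
        · simp [k]
    obtain ⟨G, g0, g⟩ := prim hR (k := fun x => if x < ε then a x else b x) (fun x hx => by
      rcases eq_or_ne x 0 with rfl | k
      · exact (ha hx).congr_of_eventuallyEq ((eventually_lt_nhds hε).mono fun y hy => if_pos hy)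
      · exact (hb x hx k).congr_of_eventuallyEq (ev x (pos x hx k))) m
    exact ⟨G, g0, fun x hx => ⟨(g x hx).1, fun k => (ev x (pos x hx k)).self_of_nhds ▸ (g x hx).2⟩⟩
  have s1 := P.s1 0 le_rfl
  have s2 : ContDiffAt ℝ ∞ (fun x => P.p1 x + 2 * x * P.p2 x) 0 :=
    s1.add ((contDiffAt_const.mul contDiffAt_id).mul (P.s2 0 le_rfl))
  obtain ⟨G, g0, g⟩ := gl (a := fun x => 2 * P.p1 x * (P.p1 x + 2 * x * P.p2 x))
    (b := fun x => P.f x * h x) (fun _ => (contDiffAt_const.mul s1).mul s2)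
    (fun x hx k => (pr x hx k).sf.mul (pr x hx k).sh) fun x hx => by
      have := (Real.sqrt_pos.2 hx.1).ne'
      simp only [hH hx.2, P.ef x hx.1, P.eH x hx.1]
      field_simp
      push_cast
      ring
  have sE : ∀ x ∈ R, ContDiffAt ℝ ∞ (fun x => Real.exp (-2 * G x)) x := fun x hx =>
    (contDiffAt_const.mul (g x hx).1).exp
  let Q : ℝ → ℝ := fun x => if x = 0 then deriv (fun x => Real.exp (-2 * G x)) 0 else
    (Real.exp (-2 * G x) - 1) / x
  have eQ : ∀ x, x ≠ 0 → Q x = (Real.exp (-2 * G x) - 1) / x := fun x k => if_neg k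
  have sQ : ∀ x ∈ R, ContDiffAt ℝ ∞ Q x := fun x hx => by
    rcases eq_or_ne x 0 with rfl | k
    · refine (had (sE 0 hx)).congr_of_eventuallyEq (.of_forall fun y => ?_)
      rcases eq_or_ne y 0 with rfl | l
      · simp [Q]
      · rw [eQ y l, dslope_of_ne _ l, slope, ← z hx, g0, z hx]
        simp [div_eq_inv_mul]
    · exact (((sE x hx).sub contDiffAt_const).div contDiffAt_id k).congr_of_eventuallyEq
        ((eventually_ne_nhds k).mono eQ)
  obtain ⟨Φ, -, p⟩ := gl (a := fun x => -Q x * (P.p1 x + 2 * x * P.p2 x) / (4 * P.p1 x))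
    (b := fun x => (2 - 2 * Real.exp (-2 * G x)) / P.f x * h x)
    (fun k => ((sQ 0 k).neg.mul s2).div (contDiffAt_const.mul s1)
      (mul_ne_zero four_ne_zero (P.pos1 0 le_rfl).ne'))
    (fun x hx k => ((contDiffAt_const.sub (contDiffAt_const.mul (sE x hx))).div (pr x hx k).sf
      (pr x hx k).pf.ne').mul (pr x hx k).sh) fun x hx => by
      have := (Real.sqrt_pos.2 hx.1).ne'
      have := (P.pos1 x hx.1.le).ne'
      have := hx.1.ne'
      have e := Real.sq_sqrt hx.1.le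
      simp only [hH hx.2, P.ef x hx.1, P.eH x hx.1, eQ x hx.1.ne']
      field_simp
      rw [e]
      push_cast
      ring
  refine ⟨G, Q, Φ, fun x hx => (g x hx).1, sQ, fun x hx => (p x hx).1, fun x hx => ?_,
    fun x hx => (g x hx).2, fun x hx => (p x hx).2⟩
  rcases eq_or_ne x 0 with rfl | k
  · rw [← z hx, g0, z hx]; simp
  · rw [eQ x k, div_mul_cancel₀ _ k]

end Crest.Agent.X212.Lk34
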