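import Crest.Agent.X212.Lk34.Nck
import Crest.Agent.X212.Loc8.Thin

/-!
# Row 212, LIX-KER (helper34), part Cur: the anti-self-dual form of level `1/4` is explicit
-/

set_option autoImplicit false
set_option linter.unusedSectionVars false
noncomputable section
open Set Function Filter Topology MeasureTheory
open scoped ContDiff Manifold Real
open Crest.Agent.R208.F (Ext)

namespace Crest.Agent.X212.Lk34
open An Nd18 Sob92 Wz78 Lns95 Lix26 Num57
open Qab60 (Fo Off Sq)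
open Dr59 (dM)
open M (Mf)

variable {Y : Mf 3} [CompactSpace Y.M] {κ : Type} [Fintype κ] {lam : Type} [Fintype lam]
  [DecidableEq lam] {E : Type} [NormedAddCommGroup E] [NormedSpace ℝ E] [FiniteDimensional ℝ E]
  [MeasurableSpace E] [BorelSpace E]
  {HM : Type} [TopologicalSpace HM] {I : ModelWithCorners ℝ E HM} [I.Boundaryless]
  {M : Type} [TopologicalSpace M] [ChartedSpace HM M] [IsManifold I ∞ M] [T2Space M]
  [MeasurableSpace M] [BorelSpace M] [SecondCountableTopology M]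
  {D : YD Y.I Y.M κ (lam ⊕ lam)} {B : Base M (Option κ) (lam ⊕ lam)}
  {G : Geo I M (Option κ) (lam ⊕ lam)} {K : Nk D B G} {Ω : Set M} {d : Mdl K Ω}
  {y : M} {b : Bool} {g Q Φ : ℝ → ℝ}

open Classical in
theorem glue {o : M → Ext E} (Ds : Dsc I o 4 Ω) (cl : IsClopen Ω) {T : Type} [NormedAddCommGroup T]
    [NormedSpace ℝ T] (f : Bool → M → T) (h : ∀ y ∈ Ds.O false ∩ Ds.O true, f true y = f false y)
    (s : ∀ b, ∀ y ∈ Ds.O b, SA I (f b) y) :
    ∃ F : M → T, Sm I F ∧ (∀ b, ∀ y ∈ Ds.O b, F =ᶠ[𝓝 y] f b) ∧ ∀ y ∉ Ω, F y = 0 := by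
  let F : M → T := fun y => if y ∈ Ds.O false then f false y else if y ∈ Ds.O true then f true y else 0
  have e : ∀ b, ∀ y ∈ Ds.O b, F =ᶠ[𝓝 y] f b := fun b y hy =>
    ((Ds.ch b).op.eventually_mem hy).mono fun z hz => by
      by_cases k : z ∈ Ds.O false
      · cases b
        exacts [if_pos k, (if_pos k).trans (h z ⟨k, hz⟩).symm]
      · cases b
        exacts [(k hz).elim, (if_neg k).trans (if_pos hz)]
  have z : ∀ y ∉ Ω, F y = 0 := fun y hy =>
    (if_neg fun k => hy (Ds.sub _ k)).trans (if_neg fun k => hy (Ds.sub _ k))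
  refine ⟨F, fun y => ?_, e, z⟩
  by_cases hy : y ∈ Ω
  · obtain ⟨b, hb⟩ := (Ds.cov y).1 hy
    exact (s b y hb).congr_of_eventuallyEq (e b y hb)
  · exact contMDiffAt_const.congr_of_eventuallyEq ((cl.1.isOpen_compl.eventually_mem hy).mono z)

variable (d g Q) in
/-- the potential of the adjoint line -/
abbrev a0 : Bool → Option κ → M → ℝ :=
  pt d.Ds G.F.e (fun x => -2 * Real.exp (-2 * g x)) fun x => -Q x / 2

variable (ok : d.OK) (r : Rf d.P d.h (xx d.Ds '' Ω) g Q Φ)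
include ok r

omit ok in
theorem sE {x : ℝ} (hx : x ∈ xx d.Ds '' Ω) : ContDiffAt ℝ ∞ (fun x => Real.exp (-2 * g x)) x :=
  (contDiffAt_const.mul (r.sG x hx)).exp

omit ok in
theorem hq0 : ∀ x ∈ xx d.Ds '' Ω, -Q x / 2 * x = -2 * Real.exp (-2 * g x) / 4 + 1 / 2 :=
  fun x hx => by linarith [r.eQ x hx]

theorem sa_a0 (hy : y ∈ d.Ds.O b) (a : Option κ) : SA I (a0 d g Q b a) y :=
  sa_pt (gfrm ok.mo.hG) hy (contDiffAt_const.mul (sE r (mem_R hy)))
    ((r.sQ _ (mem_R hy)).neg.div_const 2) a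

theorem d1_a0 (hy : y ∈ d.Ds.O b) (h0 : d.Ds.w b y ≠ 0) (s t : Option κ) :
    d1 I G.F.e G.F.c (a0 d g Q b) s t y = 4 * Real.exp (-2 * g (xx d.Ds y)) *
      (wq (d.Ds.V d.P d.h G.F.e b · · y) 0 1 s t - wq (d.Ds.V d.P d.h G.F.e b · · y) 2 3 s t) := by
  have f0 := (ok.mo.pr b y hy h0).pf.ne'
  rw [d1_pt (Pr := d.P) (h := d.h) (ψ1 := 4 * Real.exp (-2 * g (‖d.Ds.w b y‖ ^ 2)) * d.P.f (‖d.Ds.w b y‖ ^ 2))
    (gfrm ok.mo.hG) hy h0 f0 (hq0 r) (contDiffAt_const.mul (sE r (mem_R hy)))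
    ((((r.dG _ (mem_R hy) (by simpa)).const_mul (-2)).exp.const_mul (-2)).congr_deriv (by ring)),
    xx_eq hy]
  field_simp
  ring

/-- **the curvature** -/
theorem cur {f : M → Ext E} (S : Sl B G Ω f) : ∃ s : ℝ, s * s = 1 ∧ ∀ b, ∀ y ∈ d.Ds.O b, ∀ a c,
    2 * k2 G.F f a c y = -s * d1 I G.F.e G.F.c (a0 d g Q b) a c y := by
  have h := ok.ins
  have F := gfrm h.hG
  have p := Sep15.Cls.pc (en ok) h.cs h.span (by rw [h.sq, neg_lt_zero]; positivity)
  obtain ⟨t, α, h1, h2, h3, h4⟩ := Sep15.Cls.rep p h.cs h.span S.cz S.sq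
  rw [S.lev, h.sq] at h4
  have t2 : t ^ 2 = 1 / 4 := mul_right_cancel₀ (pow_ne_zero 2 Real.pi_ne_zero) (by linarith)
  have m2 : d.μ ^ 2 = 1 / 4 := by rw [← sq_abs, ok.hμ]; norm_num
  set s := 4 * t * d.μ with es
  have ss : s * s = 1 := by rw [es]; linear_combination 16 * d.μ ^ 2 * t2 + 4 * m2
  have s3 : ∀ b y, ContDiffAt ℝ ∞ d.P.p3 (‖d.Ds.w b y‖ ^ 2) := fun b y => d.P.s3 _ (by positivity)
  have sP := fun b y hy => sa_pt (ψ := fun x => d.μ * ((4 : ℕ) + x * d.P.p3 x))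
    (q := fun x => d.μ * d.P.p3 x / (4 : ℕ)) (b := b) (y := y) F hy
    (contDiffAt_const.mul (contDiffAt_const.add (contDiffAt_id.mul (s3 b y))))
    ((contDiffAt_const.mul (s3 b y)).div_const _)
  let ψ : ℝ → ℝ := fun x => s * Real.exp (-2 * g x) - t * (d.μ * ((4 : ℕ) + x * d.P.p3 x))
  let q : ℝ → ℝ := fun x => s * Q x / 4 - t * (d.μ * d.P.p3 x / (4 : ℕ))
  have e0 : ∀ b a, pt d.Ds G.F.e ψ q b a = fun y => -s / 2 * a0 d g Q b a y + -t * pt d.Ds G.F.e
      (fun x => d.μ * ((4 : ℕ) + x * d.P.p3 x)) (fun x => d.μ * d.P.p3 x / (4 : ℕ)) b a y :=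
    fun b a => funext fun y => by simp only [pt, ψ, q]; ring
  have sc : ∀ (r : ℝ) y, SA I (fun _ : M => r) y := fun _ _ => contMDiffAt_const
  have gl := fun a => glue d.Ds h.cl (fun b => pt d.Ds G.F.e ψ q b a) (fun y hy => by
    have := pt_chg (e := G.F.e) (ψ := ψ) (q := q) (c := 0) hy a (by
      simp only [ψ, q]
      push_cast
      linear_combination s / 4 * r.eQ _ (mem_R hy.1) - 1 / 4 * es)
    linarith) fun b y hy => by
      rw [e0]; exact (SA.mul (sc _ y) (sa_a0 ok r hy a)).add (SA.mul (sc _ y) (sP b y hy a))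
  choose u u1 u2 u3 using gl
  have fo : Fo I 1 (fm1 G.F u) := ⟨fun x => smAt_fm1 G.F fun a => u1 a x, deg_fm1 G.F _⟩
  have ku : ∀ a, k1 G.F (fm1 G.F u) a = u a := fun a => funext fun y => by
    rw [k1_fm1, h.hG.P]
    by_cases hy : y ∈ Ω
    · obtain ⟨b, hb⟩ := (d.Ds.cov y).1 hy
      simp only [fun a => (u2 a b y hb).self_of_nhds, pr_pt F]
    · simp [u3 _ y hy]
  have of : Off Ω (fm1 G.F u) := fun y hy => by simp [fm1_apply, u3 _ y hy]
  set f0 := t • d.w + dM I (fm1 G.F u) with hf0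
  have dc : ∀ {α β : Option κ → M → ℝ} {y : M}, (∀ a, α a =ᶠ[𝓝 y] β a) → ∀ a c,
      G.F.D a (α c) y - G.F.D c (α a) y - ∑ k, G.F.c a c k y * α k y = d1 I G.F.e G.F.c β a c y :=
    fun {α β y} e a c => by
      simp only [Pre.D_def, dv_congr (e _), fun a => (e a).self_of_nhds, d1, smul_eq_mul]
  have k0 : ∀ b, ∀ y ∈ d.Ds.O b, ∀ a c,
      k2 G.F f0 a c y = -s / 2 * d1 I G.F.e G.F.c (a0 d g Q b) a c y := fun b y hy a c => by
    have C := d.Ds.ch b
    rw [hf0, k2_add, k2_smul, k2_dM G.F (fo.sm y) (.of_forall fo.dg), dc fun a => ku a ▸ u2 a b y hy,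
      show k2 G.F d.w a c y = k2 G.F (dM I (d.al b)) a c y by rw [k2, k2, ok.wa b y hy],
      k2_dM G.F ((ok.fr b).sm_fr C.op (ok.lo.mono (subset_univ _)).sa y hy)
        (.of_forall fun _ => Dr59.isDeg_io _),
      dc (β := pt d.Ds G.F.e (fun x => d.μ * ((4 : ℕ) + x * d.P.p3 x))
        (fun x => d.μ * d.P.p3 x / (4 : ℕ)) b) fun a => (C.op.eventually_mem hy).mono fun z hz => by
          refine (e1_io _ _).trans ?_
          rw [pt, mu_eq (C.su z hz), mu_eq (C.sw z hz)]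
          rfl,
      show pt d.Ds G.F.e ψ q b = _ from funext (e0 b),
      d1_add (fun a => SA.mul (sc _ y) (sa_a0 ok r hy a)) fun a => SA.mul (sc _ y) (sP b y hy a),
      d1_mul (sc _ y) (sa_a0 ok r hy), d1_mul (sc _ y) (sP b y hy)]
    simp only [dv_const, Pi.zero_apply]
    ring
  have z := ((Qab60.cz_of_cs h.cs).smul t).add ⟨fo.d, fo.dd, of.d h.cl⟩
  have asd : ∀ y ∈ Ω, hs G.F B.o y (Qab60.c2 G.F f0 y) = 0 := fun y hy => by
    obtain ⟨b, hb⟩ := (d.Ds.cov y).1 hy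
    refine norm_eq_zero.1 (pow_eq_zero_iff two_ne_zero |>.1 (tendsto_nhds_unique_of_frequently_eq
      ((Loc8.cont_hs h.tam.ok z.fo.sm).tendsto y) tendsto_const_nhds
      (((d.Ds.ch b).dense hb).mono fun x hx => ?_)))
    have := sdn_two (ok.mo.ox hx.1 hx.2) (k := fun t => k2 G.F f0 t.1 t.2 x)
      (a := -2 * s * Real.exp (-2 * g (xx d.Ds x))) (b := 2 * s * Real.exp (-2 * g (xx d.Ds x)))
      fun t => by rw [k0 b x hx.1, d1_a0 ok r hx.1 hx.2]; ring
    rw [sdn, show ∀ v : ℝ, -2 * s * v + 2 * s * v = 0 from fun v => by ring, abs_zero,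
      Real.sqrt_eq_zero (by positivity)] at this
    exact (Loc8.norm_hs h.hG f0 x).trans this
  obtain ⟨C, hC⟩ := decay ok r
  have ct := (Qab60.sm_c2 (F := G.F) z.fo.sm).continuous
  have sq : Sq G.F f0 := (memLp_two_iff_integrable_sq_norm ct.aestronglyMeasurable).2
    ((h.one.int (δ := 4) (C := 16 * C ^ 2) (ct.norm.pow 2).continuousOn four_pos
      fun y hy => by
        rw [one_mul] at hy ⊢
        obtain ⟨b, hb⟩ := (d.Ds.cov y).1 ((en ok).mem hy)
        have w := wq_wq (ok.mo.on0 hb (w_ne ok hb hy))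
        have e : ‖Qab60.c2 G.F f0 y‖ ^ 2 = 16 * Real.exp (-2 * g (xx d.Ds y)) ^ 2 := by
          have : ∀ v a c : ℝ, (-s / 2 * (4 * v * (a - c))) ^ 2 = 4 * v ^ 2 * (a * a - 2 * (a * c) + c * c) :=
            fun v a c => by linear_combination 4 * v ^ 2 * (a - c) ^ 2 * ss
          simp only [PiLp.norm_sq_eq_of_L2, Qab60.c2, Real.norm_eq_abs, sq_abs, k0 b y hb,
            d1_a0 ok r hb (w_ne ok hb hy), this, ← Finset.mul_sum, Finset.sum_add_distrib,
            Finset.sum_sub_distrib, w]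
          simp; ring
        show ‖‖Qab60.c2 G.F f0 y‖ ^ 2‖ ≤ _
        rw [Real.norm_of_nonneg (by positivity), e, show -4 * K.tm y = (2 : ℕ) * (-2 * K.tm y) by
          push_cast; ring, Real.exp_nat_mul, mul_assoc, ← mul_pow]
        exact mul_le_mul_of_nonneg_left (pow_le_pow_left₀ (Real.exp_pos _).le (hC y hy).1 2)
          (by norm_num)).integrable_of_forall_notMem_eq_zero fun y hy => by
      rw [Pi.pow_apply, Qab60.c2_of_zero (z.off y hy), norm_zero, zero_pow two_ne_zero])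
  have e := Sep15.Cls.uq p h.cs sq S.sq asd S.asd fo of hf0 h1 h2 h3
  exact ⟨s, ss, fun b y hy a c => by rw [e, k0 b y hy]; ring⟩

end Crest.Agent.X212.Lk34
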