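import Crest.Agent.X212.Dfl49.Hom
import Crest.Agent.X212.Lns95.Cof

/-!
# Row 212, LIX-KER (helper34), part Eta: sections of a complex bundle with prescribed potentials
-/

set_option autoImplicit false
set_option linter.unusedSectionVars false
noncomputable section
open Set Function Filter Topology
open scoped ContDiff Manifold InnerProductSpace

namespace Crest.Agent.X212.Lk34
open An Sob92 Wz78 Dfl49
open Lns95 (dv_re dv_im d1_neg)
open Line51 (fsm_re fsm_im)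

variable {E : Type} [NormedAddCommGroup E] [NormedSpace ℝ E] [FiniteDimensional ℝ E]
  [MeasurableSpace E] [BorelSpace E]
  {HM : Type} [TopologicalSpace HM] {I : ModelWithCorners ℝ E HM} [I.Boundaryless]
  {M : Type} [TopologicalSpace M] [ChartedSpace HM M] [IsManifold I ∞ M]
  [MeasurableSpace M] {ι : Type} [Fintype ι]
  {V : Type} [NormedAddCommGroup V] [InnerProductSpace ℝ V] [CompleteSpace V] {β : Type}

/-- multiplication by a complex number -/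
def cm (J : V →L[ℝ] V) (z : ℂ) (v : V) : V := z.re • v + z.im • J v

theorem cm_cm {J : V →L[ℝ] V} {v : V} (h : J (J v) = -v) (z w : ℂ) :
    cm J z (cm J w v) = cm J (z * w) v := by
  simp only [cm, map_add, map_smul, h, Complex.mul_re, Complex.mul_im]; module

theorem cm_one (J : V →L[ℝ] V) (v : V) : cm J 1 v = v := by simp [cm]

theorem J_cm (J : V →L[ℝ] V) (z : ℂ) (v : V) : J (cm J z v) = cm J z (J v) := by simp [cm]

theorem norm_J {J : V →L[ℝ] V} (s : Skew J) {v : V} (h : J (J v) = -v) : ‖J v‖ = ‖v‖ := by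
  rw [← sq_eq_sq₀ (norm_nonneg _) (norm_nonneg _), ← real_inner_self_eq_norm_sq, s, h]; simp

theorem norm_cm {J : V →L[ℝ] V} (s : Skew J) {v : V} (h : J (J v) = -v) (z : ℂ) :
    ‖cm J z v‖ = ‖z‖ * ‖v‖ := by
  have := s.self v
  rw [← sq_eq_sq₀ (norm_nonneg _) (by positivity), cm, norm_add_sq_real, norm_smul, norm_smul,
    norm_J s h, real_inner_smul_left, real_inner_smul_right, real_inner_comm, this]
  simp only [mul_pow, Real.norm_eq_abs, sq_abs, Lns95.nsq]; ring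

/-- a complex bundle `(range Q, J)` whose curvature has the potentials `α b` -/
structure Tc (F : Fr I M ι) (Ω : Set M) (A : ι → M → V →L[ℝ] V) (Q J : M → V →L[ℝ] V)
    (O : β → Set M) (α : β → ι → M → ℝ) (g : β → β → M → ℂ) : Prop where
  op : ∀ b, IsOpen (O b)
  cov : ∀ y, y ∈ Ω ↔ ∃ b, y ∈ O b
  sA : ∀ a, ∀ x ∈ Ω, SA I (A a) x
  pA : ∀ a, ∀ x ∈ Ω, ∑ b, F.P a b x • A b x = A a x
  sk : ∀ a, ∀ x ∈ Ω, Skew (A a x)
  sQ : ∀ x ∈ Ω, SA I Q x
  sJ : ∀ x ∈ Ω, SA I J x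
  nQ : ∀ a, ∀ x ∈ Ω, nabE I F.e A a Q x = 0
  nJ : ∀ a, ∀ x ∈ Ω, nabE I F.e A a J x = 0
  QQ : ∀ x ∈ Ω, ∀ v, Q x (Q x v) = Q x v
  QJ : ∀ x ∈ Ω, ∀ v, Q x v = v → Q x (J x v) = J x v
  JJ : ∀ x ∈ Ω, ∀ v, Q x v = v → J x (J x v) = -v
  Jk : ∀ x ∈ Ω, Skew (J x)
  sα : ∀ b a, ∀ x ∈ O b, SA I (α b a) x
  pα : ∀ b a, ∀ x ∈ O b, ∑ k, F.P a k x * α b k x = α b a x
  cu : ∀ b a k, ∀ x ∈ O b, ∀ v, Q x v = v → curv I F.e F.c A a k x v = d1 I F.e F.c (α b) a k x • J x v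
  sg : ∀ b b', ∀ x ∈ O b ∩ O b', SA I (g b b') x
  one : ∀ b, ∀ x ∈ O b, g b b x = 1
  nrm : ∀ b b', ∀ x ∈ O b ∩ O b', ‖g b b' x‖ = 1
  coc : ∀ b b' b'', ∀ x ∈ O b ∩ O b' ∩ O b'', g b' b'' x * g b b' x = g b b'' x
  dg : ∀ b b' a, ∀ x ∈ O b ∩ O b', dv I (F.e a) (g b b') x =
    (α b' a x - α b a x : ℝ) * (Complex.I * g b b' x)

/-- a section with `∇ η = α J η` at `x` -/
structure Pl (F : Fr I M ι) (A : ι → M → V →L[ℝ] V) (Q J : M → V →L[ℝ] V) (α : ι → M → ℝ)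
    (η : M → V) (x : M) : Prop where
  sm : SA I η x
  mem : Q x (η x) = η x
  par : ∀ a, nab I F.e A a η x = α a x • J x (η x)

/-- compatible sections of constant norm -/
structure Et (F : Fr I M ι) (A : ι → M → V →L[ℝ] V) (Q J : M → V →L[ℝ] V)
    (O : β → Set M) (α : β → ι → M → ℝ) (g : β → β → M → ℂ) (r : ℝ) (η : β → M → V) : Prop where
  pl : ∀ b, ∀ y ∈ O b, Pl F A Q J (α b) (η b) y
  tr : ∀ b b', ∀ y ∈ O b ∩ O b', η b' y = cm (J y) (g b b' y) (η b y)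
  nm : ∀ b, ∀ y ∈ O b, ‖η b y‖ = r

variable {F : Fr I M ι} {Ω : Set M} {A : ι → M → V →L[ℝ] V} {Q J : M → V →L[ℝ] V}
  {O : β → Set M} {α : β → ι → M → ℝ} {g : β → β → M → ℂ} {x : M} {b b' : β} {η : M → V}

theorem pl_iff {a : ι → M → ℝ} : Pl F A Q J a η x ↔ PA F (A + fun k y => -a k y • J y) Q η x := by
  have e : ∀ k, nab I F.e (A + fun k y => -a k y • J y) k η x = 0 ↔
      nab I F.e A k η x = a k x • J x (η x) := fun k => by
    rw [nab_addA, smul_apply, neg_smul, add_neg_eq_zero]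
  exact ⟨fun h => ⟨h.sm, h.mem, fun k => (e k).2 (h.par k)⟩, fun h => ⟨h.sm, h.mem, fun k => (e k).1 (h.par k)⟩⟩

theorem Pl.congr {a : ι → M → ℝ} {η' : M → V} (h : Pl F A Q J a η x) (e : η' =ᶠ[𝓝 x] η) :
    Pl F A Q J a η' x := pl_iff.2 ((pl_iff.1 h).congr e)

namespace Tc
variable (h : Tc F Ω A Q J O α g)
include h

theorem sub (hx : x ∈ O b) : x ∈ Ω := (h.cov x).2 ⟨b, hx⟩

theorem flt (b : β) : Flt F (O b) (A + fun k y => -α b k y • J y) Q := by
  have s := fun a x hx => (h.sα b a x hx).neg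
  refine ⟨h.op b, fun a x hx => (h.sA a x (h.sub hx)).add (SA.smul (s a x hx) (h.sJ x (h.sub hx))),
    fun a x hx => ?_, fun x hx => h.sQ x (h.sub hx), fun a x hx => ?_, fun a k x hx => ?_⟩
  · simp only [Pi.add_apply, smul_add, Finset.sum_add_distrib, h.pA a x (h.sub hx), smul_smul,
      ← Finset.sum_smul, mul_neg, Finset.sum_neg_distrib, h.pα b a x hx]
  · ext1 v
    simp [nabE_addA, h.nQ a x (h.sub hx), h.QQ x (h.sub hx), h.QJ x (h.sub hx) _ (h.QQ x (h.sub hx) v)]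
  · ext1 v
    rw [curv_add_smul (fun a => h.sA a x (h.sub hx)) (fun a => s a x hx) (h.sJ x (h.sub hx))
      fun a => h.nJ a x (h.sub hx), d1_neg]
    simp [h.cu b a k x hx _ (h.QQ x (h.sub hx) v)]

theorem pl_J {a : ι → M → ℝ} (hx : x ∈ Ω) (p : Pl F A Q J a η x) :
    Pl F A Q J a (fun y => J y (η y)) x :=
  ⟨(h.sJ x hx).app p.sm, h.QJ x hx _ p.mem, fun k => by
    rw [nab_app' k (h.sJ x hx) p.sm, h.nJ k x hx, p.par, zero_apply, zero_add, map_smul]⟩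

theorem gauge (hx : x ∈ O b ∩ O b') (p : Pl F A Q J (α b) η x) :
    Pl F A Q J (α b') (fun y => cm (J y) (g b b' y) (η y)) x := by
  have q := h.pl_J (h.sub hx.1) p
  have s := h.sg b b' x hx
  have s1 := SA.smul (fsm_re s) p.sm
  have s2 := SA.smul (fsm_im s) q.sm
  refine ⟨s1.add s2, by simp only [cm, map_add, map_smul, p.mem, q.mem], fun k => ?_⟩
  have j := h.JJ x (h.sub hx.1) _ p.mem
  unfold cm
  rw [nab_add k s1 s2, nab_smul k (fsm_re s) p.sm, nab_smul k (fsm_im s) q.sm, dv_re s, dv_im s,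
    h.dg b b' k x hx, p.par, q.par]
  simp only [map_add, map_smul, j, Complex.mul_re, Complex.mul_im, Complex.ofReal_re, Complex.ofReal_im,
    Complex.I_re, Complex.I_im]
  module

theorem norm_ev (hx : x ∈ O b) (p : ∀ y ∈ O b, Pl F A Q J (α b) η y) : ∀ᶠ y in 𝓝 x, ‖η y‖ = ‖η x‖ := by
  refine (par_uniq (F := F) (A := fun _ _ => (0 : ℝ →L[ℝ] ℝ)) (s := fun y => ⟪η y, η y⟫_ℝ)
    (s' := fun _ => ⟪η x, η x⟫_ℝ) (.of_forall fun y a => ⟨contMDiffAt_const, by simp⟩)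
    (((h.op b).eventually_mem hx).mono fun y hy => ⟨(p y hy).sm.inner (p y hy).sm, fun a => ?_⟩)
    (.of_forall fun y => ⟨contMDiffAt_const, fun a => by simp [nab]⟩) rfl).mono fun y hy => ?_
  · rw [nab, dv_inner (e := F.e) a (h.sk a y (h.sub hy)) (p y hy).sm (p y hy).sm, (p y hy).par,
      real_inner_comm, real_inner_smul_right, real_inner_comm, (h.Jk y (h.sub hy)).self]
    simp
  · simpa only [real_inner_self_eq_norm_sq, sq_eq_sq₀ (norm_nonneg _) (norm_nonneg _)] using hy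

open Classical in
/-- **compatible sections exist on a simply connected set** -/
theorem ex (hx : x ∈ O b) (hs : Sur {x} Ω) {v : V} (hv : Q x v = v) :
    ∃ η, Et F A Q J O α g ‖v‖ η := by
  let G0 : M → (M → β → V) → Prop := fun y s => (∀ b, y ∈ O b → Pl F A Q J (α b) (s · b) y) ∧
    (∀ b, y ∉ O b → s y b = 0) ∧ ∀ b b', y ∈ O b ∩ O b' → s y b' = cm (J y) (g b b' y) (s y b)
  have mk : ∀ (b : β) (t : M → V), ∃ s : M → β → V, (∀ z b', s z b' =
      if z ∈ O b' then cm (J z) (g b b' z) (t z) else 0) ∧ ∀ z ∈ O b, Pl F A Q J (α b) t z → G0 z s :=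
    fun b t => ⟨_, fun _ _ => rfl, fun z hz p => ⟨fun b' k => (h.gauge ⟨hz, k⟩ p).congr
      (((h.op b').eventually_mem k).mono fun y hy => if_pos hy), fun b' k => if_neg k, fun b' b'' k => by
        simp only [k.1, k.2, if_true]
        rw [cm_cm (h.JJ z (h.sub hz) _ p.mem), h.coc b b' b'' z ⟨⟨hz, k.1⟩, k.2⟩]⟩⟩
  have L : LS Ω fun x s => ∀ᶠ y in 𝓝 x, G0 y s := by
    refine ⟨fun x s s' h1 h2 => ?_, fun x hx s s' h1 h2 h3 => ?_, fun x hx => ?_⟩
    · filter_upwards [h1, h2.eventually_nhds] with y k e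
      exact ⟨fun b hb => (k.1 b hb).congr (e.mono fun z hz => congrFun hz b),
        by rw [e.self_of_nhds]; exact k.2.1, by rw [e.self_of_nhds]; exact k.2.2⟩
    · obtain ⟨b, hb⟩ := (h.cov x).1 hx
      have ev := (h.op b).eventually_mem hb
      filter_upwards [h1, h2, ev, (h.flt b).ls.idn x hb (s · b) (s' · b)
        ((h1.and ev).mono fun y k => pl_iff.1 (k.1.1 b k.2))
        ((h2.and ev).mono fun y k => pl_iff.1 (k.1.1 b k.2)) (h3.mono fun y k => congrFun k b)]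
        with y k k' hy e
      funext b'
      by_cases q : y ∈ O b'
      · rw [k.2.2 b b' ⟨hy, q⟩, k'.2.2 b b' ⟨hy, q⟩, e]
      · rw [k.2.1 b' q, k'.2.1 b' q]
    · obtain ⟨b, hb⟩ := (h.cov x).1 hx
      obtain ⟨W, h1, h2, h3, h4⟩ := (h.flt b).exists_loc hb
      refine ⟨W, h1, fun y hy s hs => ?_⟩
      have k := hs.self_of_nhds
      obtain ⟨t, t1, t2⟩ := h4 y hy _ (k.1 b (h3 hy)).mem
      obtain ⟨s', e, p⟩ := mk b t
      refine ⟨s', fun z hz => (h2.eventually_mem hz).mono fun w hw => p w (h3 hw) (pl_iff.2 (t2 w hw)),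
        funext fun b' => ?_⟩
      by_cases q : y ∈ O b'
      · rw [e, if_pos q, t1, k.2.2 b b' ⟨h3 hy, q⟩]
      · rw [e, if_neg q, k.2.1 b' q]
  obtain ⟨W, h1, h2, h3, h4⟩ := (h.flt b).exists_loc hx
  have hW := mem_of_mem_nhds h1
  obtain ⟨t, t1, t2⟩ := h4 x hW v hv
  obtain ⟨s', e, p⟩ := mk b t
  obtain ⟨s, s1, s2⟩ := hs _ _ L s' (by
    rintro _ rfl
    exact (h2.eventually_mem hW).mono fun w hw => p w (h3 hw) (pl_iff.2 (t2 w hw)))
  have k := fun y hy => (s1 y hy).self_of_nhds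
  have pl := fun b y hy => (k y (h.sub hy)).1 b hy
  have n : ∀ b b', ∀ y ∈ O b ∩ O b', ‖s y b'‖ = ‖s y b‖ := fun b b' y hy => by
    rw [(k y (h.sub hy.1)).2.2 b b' hy, norm_cm (h.Jk y (h.sub hy.1))
      (h.JJ y (h.sub hy.1) _ (pl b y hy.1).mem), h.nrm b b' y hy, one_mul]
  have z : ‖s x b‖ = ‖v‖ := by rw [s2 rfl, e, if_pos hx, h.one b _ hx, cm_one, t1]
  refine ⟨fun b y => s y b, pl, fun b b' y hy => (k y (h.sub hy.1)).2.2 b b' hy, fun c y hy =>
    hs.prop (P := fun y => ∀ b, y ∈ O b → ‖s y b‖ = ‖v‖) (fun y hy => ?_)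
      (fun y (hy : y = x) c hc => by subst hy; rw [n b c _ ⟨hx, hc⟩, z]) y (h.sub hy) c hy⟩
  obtain ⟨c, hc⟩ := (h.cov y).1 hy
  filter_upwards [(h.op c).eventually_mem hc, h.norm_ev hc (pl c)] with z hz e
  exact ⟨fun q c' k => by rw [n c c' y ⟨hc, k⟩, ← e, q c hz],
    fun q c' k => by rw [n c c' z ⟨hz, k⟩, e, q c hc]⟩

theorem et_J {r : ℝ} {η : β → M → V} (p : Et F A Q J O α g r η) :
    Et F A Q J O α g r fun b y => J y (η b y) :=
  ⟨fun b y hy => h.pl_J (h.sub hy) (p.pl b y hy), fun b b' y hy => by rw [p.tr b b' y hy, J_cm],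
    fun b y hy => by rw [norm_J (h.Jk y (h.sub hy)) (h.JJ y (h.sub hy) _ (p.pl b y hy).mem), p.nm b y hy]⟩

end Tc

end Crest.Agent.X212.Lk34
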