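import Crest.Agent.X212.Lk34.Pot
import Crest.Agent.X212.Lk34.Ode
import Crest.Agent.X212.Lix26.Defs
import Crest.Agent.X212.Sep15.ClsA

/-!
# Row 212, LIX-KER (helper34), part Nck: the model on the neck; decay of the radial functions
-/

set_option autoImplicit false
set_option linter.unusedSectionVars false
noncomputable section
open Set Function Filter Topology
open scoped ContDiff Manifold

namespace Crest.Agent.X212.Lk34
open An Nd18 Sob92 Wz78 Lns95 Lix26 Cyf70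
open M (Mf)

variable {Y : Mf 3} [CompactSpace Y.M] {κ : Type} [Fintype κ] {lam : Type} [Fintype lam]
  [DecidableEq lam] {E : Type} [NormedAddCommGroup E] [NormedSpace ℝ E] [FiniteDimensional ℝ E]
  [MeasurableSpace E] [BorelSpace E]
  {HM : Type} [TopologicalSpace HM] {I : ModelWithCorners ℝ E HM} [I.Boundaryless]
  {M : Type} [TopologicalSpace M] [ChartedSpace HM M] [IsManifold I ∞ M] [T2Space M]
  [MeasurableSpace M] [BorelSpace M] [SecondCountableTopology M]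
  {D : YD Y.I Y.M κ (lam ⊕ lam)} {B : Base M (Option κ) (lam ⊕ lam)}
  {G : Geo I M (Option κ) (lam ⊕ lam)} {K : Nk D B G} {Ω : Set M} {d : Mdl K Ω} (ok : d.OK)
  {y : M} {b : Bool}
include ok

theorem en : Qab60.En K Ω := ⟨ok.ins.hD, Qd40.volY ok.ins.hD.G.vol, ok.ins.tam, ok.ins.hG, ok.ins.one⟩

theorem w_ne (hy : y ∈ d.Ds.O b) (ht : 0 < K.tm y) : d.Ds.w b y ≠ 0 := by
  have e := en ok
  obtain ⟨z, hz⟩ := ok.cv.sj (K.ψ.symm y).1
  obtain ⟨c, hc⟩ : ∃ c, (Th c z).2 ≠ 0 := by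
    by_contra! k
    exact Rod53.L4_ne one_pos z (by rw [one_smul]; exact Prod.ext (k true) (k false))
  obtain ⟨h1, -, ρ, h2, h3⟩ := ok.nk c z (K.tm y) ht hc
  rw [hz, ← e.symm2 ht, Prod.mk.eta, K.ψ.right_inv (e.tgt ht)] at h1 h3
  intro k
  have := (xx_eq h1).symm.trans (xx_eq hy)
  simp [k, h3, h2.ne'] at this

/-- the radius along the neck -/
theorem neck : ∃ R : ℝ → ℝ, (∀ y, 0 < K.tm y → xx d.Ds y = R (K.tm y)) ∧
    (∀ t, 0 < t → R t ∈ xx d.Ds '' Ω ∧ R t ≠ 0 ∧ d.P.f (R t) = 1 ∧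
      ∃ r, HasDerivAt R r t ∧ d.h (R t) * r = 1) ∧
    ∀ b, ∀ y ∈ d.Ds.O b, 0 < K.tm y → ∀ i, i ≠ 0 → d.Ds.V d.P d.h G.F.e b i none y = 0 := by
  have e := en ok
  obtain ⟨R, mo, hR⟩ := ok.rad
  have mem : ∀ q : Y.M × ℝ, 0 < q.2 → K.ψ q ∈ Ω := fun q hq => e.mem ((e.tm hq).symm ▸ hq)
  have eR : ∀ q : Y.M × ℝ, 0 < q.2 → xx d.Ds (K.ψ q) = R q.2 := fun q hq =>
    let ⟨b, hb⟩ := (d.Ds.cov _).1 (mem q hq)
    (xx_eq hb).trans (hR b q hq hb)
  have key : ∀ b (q : Y.M × ℝ), 0 < q.2 → K.ψ q ∈ d.Ds.O b → DifferentiableAt ℝ R q.2 ∧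
      d.h (R q.2) * deriv R q.2 = 1 ∧ ∀ i, i ≠ 0 → d.Ds.V d.P d.h G.F.e b i none (K.ψ q) = 0 := by
    intro b q hq hb
    have md : MDifferentiableAt (IC Y.I) 𝓘(ℝ, ℝ) (fun z => xx d.Ds (K.ψ z)) q :=
      (ContMDiffAt.comp q (sa_xx hb) (e.smψ hq)).mdifferentiableAt (by simp)
    have ev : (fun s => xx d.Ds (K.ψ (q.1, s))) =ᶠ[𝓝 q.2] R :=
      (eventually_gt_nhds hq).mono fun s hs => eR (q.1, s) hs
    have k : ∀ a, d.Ds.V d.P d.h G.F.e b 0 a (K.ψ q) =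
        d.h (R q.2) * D.Z.D a (fun z => xx d.Ds (K.ψ z)) q := fun a => by
      rw [K.rel.D (e.src hq) a (u' := xx d.Ds) (.of_forall fun _ => rfl), Pre.D_def,
        dv_congr (xx_ev hb), ← hR b q hq hb]
      rfl
    have k1 : ∀ a, d.Ds.V d.P d.h G.F.e b 0 (some a) (K.ψ q) = 0 := fun a => by
      rw [k, show D.Z.D (some a) _ q = _ from dv_some md a,
        show (fun z => xx d.Ds (K.ψ (z, q.2))) = fun _ => R q.2 from funext fun z => eR (z, q.2) hq]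
      simp
    have k0 : d.Ds.V d.P d.h G.F.e b 0 none (K.ψ q) = d.h (R q.2) * deriv R q.2 := by
      rw [k, show D.Z.D none _ q = _ from dv_none (e := D.F.e) md, ev.deriv_eq]
    have h0 := w_ne ok hb ((e.tm hq).symm ▸ hq)
    have hon := (ok.mo.on0 hb h0).1
    simp only [Fintype.sum_option] at hon
    have o0 := hon 0 0
    simp only [k1, mul_zero, Finset.sum_const_zero, add_zero, if_true, k0] at o0
    have p : 0 ≤ d.h (R q.2) * deriv R q.2 := mul_nonneg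
      (hR b q hq hb ▸ (ok.mo.pr b _ hb h0).ph.le)
      (derivWithin_of_isOpen (f := R) isOpen_Ioi hq ▸ mo.derivWithin_nonneg)
    have p1 : d.h (R q.2) * deriv R q.2 = 1 := by nlinarith
    refine ⟨(diff_slice_snd md).congr_of_eventuallyEq ev.symm, p1, fun i hi => ?_⟩
    simpa [k1, k0, p1, hi.symm] using hon 0 i
  refine ⟨R, fun y hy => ?_, fun t ht => ?_, fun b y hy ht => ?_⟩
  · rw [← e.symm2 hy, ← eR _ ((e.symm2 hy).symm ▸ hy), K.ψ.right_inv (e.tgt hy)]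
  · obtain ⟨z⟩ : Nonempty Y.M := ⟨d.cv (Classical.arbitrary _)⟩
    obtain ⟨b, hb⟩ := (d.Ds.cov _).1 (mem (z, t) ht)
    have k := key b (z, t) ht hb
    have t0 : 0 < K.tm (K.ψ (z, t)) := (e.tm (q := (z, t)) ht).symm ▸ ht
    have r := hR b (z, t) ht hb
    exact ⟨⟨_, mem (z, t) ht, eR _ ht⟩, r ▸ pow_ne_zero 2 (norm_ne_zero_iff.2 (w_ne ok hb t0)),
      r ▸ (ok.fl b _ hb t0).1, _, k.1.hasDerivAt, k.2.1⟩
  · have r := K.ψ.right_inv (e.tgt ht)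
    exact r ▸ (key b _ ((e.symm2 ht).symm ▸ ht) (r.symm ▸ hy)).2.2

theorem exists_r : ∃ G Q Φ, Rf d.P d.h (xx d.Ds '' Ω) G Q Φ := by
  obtain ⟨ε, hε, hH⟩ := ok.hH
  obtain ⟨R, -, h, -⟩ := neck ok
  refine exists_rf (ok.ins.sc.1.image _ fun y hy => ?_).ordConnected ⟨_, (h 1 one_pos).1⟩ ?_ ?_ hε hH
  · obtain ⟨b, hb⟩ := (d.Ds.cov _).1 hy
    exact (sa_xx hb).continuousAt.continuousWithinAt
  · rintro _ ⟨y, hy, rfl⟩
    obtain ⟨b, hb⟩ := (d.Ds.cov _).1 hy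
    rw [xx_eq hb]; positivity
  · rintro _ ⟨y, hy, rfl⟩ k
    obtain ⟨b, hb⟩ := (d.Ds.cov _).1 hy
    rw [xx_eq hb] at k ⊢
    exact ok.mo.pr b y hb (by simpa using k)

theorem decay {G Q Φ : ℝ → ℝ} (r : Rf d.P d.h (xx d.Ds '' Ω) G Q Φ) : ∃ C, ∀ y, 0 < K.tm y →
    Real.exp (-2 * G (xx d.Ds y)) ≤ C * Real.exp (-2 * K.tm y) ∧
      Real.exp (-Φ (xx d.Ds y)) ≤ C * Real.exp (-2 * K.tm y) := by
  obtain ⟨R, h1, h, -⟩ := neck ok
  have g : ∀ t, 0 < t → HasDerivAt (fun t => G (R t)) 1 t ∧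
      HasDerivAt (fun t => Φ (R t)) (2 - 2 * Real.exp (-2 * G (R t))) t := fun t ht => by
    obtain ⟨m, n, f, s, k, e⟩ := h t ht
    refine ⟨((r.dG _ m n).comp t k).congr_deriv ?_, ((r.dΦ _ m n).comp t k).congr_deriv ?_⟩
    · rw [f, one_mul, e]
    · rw [f, div_one, mul_assoc, e, mul_one]
  have c : ∀ F : ℝ → ℝ, (∀ t, 0 < t → HasDerivAt F 0 t) → ∃ a, ∀ t ∈ Ioi 0, F t = a := fun F hF =>
    isOpen_Ioi.exists_is_const_of_deriv_eq_zero isPreconnected_Ioi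
      (fun t ht => (hF t ht).differentiableAt.differentiableWithinAt) fun t ht => (hF t ht).deriv
  obtain ⟨a, ha⟩ := c (fun t => G (R t) - t) fun t ht =>
    ((g t ht).1.sub (hasDerivAt_id t)).congr_deriv (sub_self _)
  obtain ⟨a', ha'⟩ := c (fun t => Φ (R t) - 2 * t - Real.exp (-2 * G (R t))) fun t ht =>
    (((g t ht).2.sub ((hasDerivAt_id t).const_mul 2)).sub ((g t ht).1.const_mul (-2)).exp).congr_deriv
      (by ring)
  refine ⟨Real.exp (max (-2 * a) (-a')), fun y hy => ?_⟩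
  have e1 := ha _ hy
  have e2 := ha' _ hy
  have := Real.exp_pos (-2 * G (R (K.tm y)))
  rw [h1 y hy, ← Real.exp_add]
  exact ⟨Real.exp_le_exp.2 (by linarith [le_max_left (-2 * a) (-a')]),
    Real.exp_le_exp.2 (by linarith [le_max_right (-2 * a) (-a')])⟩

end Crest.Agent.X212.Lk34
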