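import Crest.Agent.X212.Lns95.Mod

/-!
# Row 212, LIX-KER (helper34), part Pot: potentials and transition functions on the disc bundle
-/

set_option autoImplicit false
set_option linter.unusedSectionVars false
noncomputable section
open Set Function Filter Topology Complex
open scoped ContDiff Manifold ComplexConjugate

namespace Crest.Agent.X212.Lk34
open Sob92 Wz78 Lns95
open Met55 (VF)
open Glue52 (dir)

variable {E H : Type} [NormedAddCommGroup E] [NormedSpace ℝ E] [FiniteDimensional ℝ E]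
  [MeasurableSpace E] [BorelSpace E] [TopologicalSpace H] {I : ModelWithCorners ℝ E H} {M : Type}
  [TopologicalSpace M] [ChartedSpace H M] [IsManifold I ∞ M] [I.Boundaryless] [MeasurableSpace M]
  [BorelSpace M] [SecondCountableTopology M] {o : M → R208.F.Ext E} {N : Set M} {y : M} {ι : Type} [Fintype ι]

theorem sa_dir {z : M → ℂ} (hz : SA I z y) (h0 : z y ≠ 0) : SA I (fun x => (dir (z x) : ℂ)) y :=
  Rod53.cm_coe (Rod53.cm_dir hz h0)

theorem dv_dir {z : M → ℂ} (hz : SA I z y) (h0 : z y ≠ 0) (X : VF I M) :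
    dv I X (fun x => (dir (z x) : ℂ)) y =
      (lm (z y) (dv I X z y) / ‖z y‖ ^ 2 : ℝ) * (Complex.I * dir (z y)) := by
  set ε : M → ℂ := fun x => dir (z x) with hε
  have se : SA I ε y := sa_dir hz h0
  have sr : SA I (fun x => ‖z x‖) y := Rod53.cm_norm hz h0
  have n1 : ∀ x, ‖ε x‖ = 1 := fun x => Circle.norm_coe _
  have e0 : lr (ε y) (dv I X ε y) = 0 := by
    have := dv_nsq se X
    rw [show (fun x => ‖ε x‖ ^ 2) = fun _ => 1 from funext fun x => by rw [n1, one_pow], dv_const,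
      Pi.zero_apply] at this
    linarith
  have e1 : dv I X ε y = lm (ε y) (dv I X ε y) * Complex.I * ε y := by
    have := nsq (ε y)
    rw [n1] at this
    rw [lr_apply] at e0
    apply Complex.ext <;> simp [lm_apply]
    · linear_combination (ε y).re * e0 + (dv I X ε y).re * this
    · linear_combination (ε y).im * e0 + (dv I X ε y).im * this
  generalize lm (ε y) (dv I X ε y) = α at e1
  have e2 : dv I X z y = ((dv I X (fun x => ‖z x‖) y : ℝ) + ‖z y‖ * α * Complex.I) * ε y := by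
    conv_lhs => rw [show z = fun x => (‖z x‖ : ℂ) * ε x from
      funext fun x => (Glue52.norm_mul_dir _).symm]
    rw [dv_mul (f := fun x => ((‖z x‖ : ℝ) : ℂ)) (ofRealCLM.contDiff.contDiffAt.comp_contMDiffAt sr) se,
      dv_ofReal sr, e1]
    ring
  have e5 : lm (z y) (dv I X z y) = ‖z y‖ ^ 2 * α := by
    rw [e2]
    nth_rewrite 1 [show z y = ‖z y‖ * ε y from (Glue52.norm_mul_dir _).symm]
    rw [lm_unit (n1 y), lm_apply]
    simp; ring
  rw [e5, mul_div_cancel_left₀ _ (by simpa), e1, mul_assoc]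

variable (D : Dsc I o 4 N) (e : ι → VF I M) {b b' : Bool} {ψ q : ℝ → ℝ}

open Classical in
/-- the function `|w|²` -/
def xx (y : M) : ℝ := if y ∈ D.O false then ‖D.w false y‖ ^ 2 else ‖D.w true y‖ ^ 2

/-- the components of the potential `al ψ q` -/
def pt (ψ q : ℝ → ℝ) (b : Bool) (a : ι) (y : M) : ℝ :=
  ψ (‖D.w b y‖ ^ 2) * mu I e (D.u b) a y + q (‖D.w b y‖ ^ 2) * mu I e (D.w b) a y

/-- the base coframe `σ₂ + i σ₃` -/
def th (b : Bool) (a : ι) (y : M) : ℂ := lB (D.u b y) (dv I (e a) (D.u b) y)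

/-- the frame change -/
def tr (b : Bool) (y : M) : ℂ := cond b (-(dir (D.u false y) : ℂ) ^ 2) 1

/-- the transition functions -/
def gg (b b' : Bool) (y : M) : ℂ := tr D b' y * conj (tr D b y)

variable {D e}

theorem xx_eq (hy : y ∈ D.O b) : xx D y = ‖D.w b y‖ ^ 2 := by
  by_cases h : y ∈ D.O false
  · rw [xx, if_pos h]
    cases b
    exacts [rfl, by rw [D.nw ⟨h, hy⟩]]
  · cases b
    exacts [(h hy).elim, if_neg h]

theorem xx_ev (hy : y ∈ D.O b) : xx D =ᶠ[𝓝 y] fun y => ‖D.w b y‖ ^ 2 :=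
  ((D.ch b).op.eventually_mem hy).mono fun _ => xx_eq

theorem sa_xx (hy : y ∈ D.O b) : SA I (xx D) y :=
  (sa_nsq ((D.ch b).sw y hy)).congr_of_eventuallyEq (xx_ev hy)

theorem mem_R (hy : y ∈ D.O b) : ‖D.w b y‖ ^ 2 ∈ xx D '' N := ⟨y, D.sub b hy, xx_eq hy⟩

theorem tr_nrm (b : Bool) : ‖tr D b y‖ = 1 := by
  cases b
  exacts [norm_one, by rw [tr, cond, norm_neg, norm_pow, Circle.norm_coe, one_pow]]

theorem tr_tr (b : Bool) : tr D b y * conj (tr D b y) = 1 := by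
  rw [mul_conj, normSq_eq_norm_sq, tr_nrm]; simp

theorem gg_one : gg D b b = fun _ => 1 := funext fun _ => tr_tr b

theorem gg_coc {b'' : Bool} : gg D b' b'' y * gg D b b' y = gg D b b'' y := by
  simp only [gg]; linear_combination (tr D b'' y * conj (tr D b y)) * tr_tr (D := D) (y := y) b'

theorem gg_nrm : ‖gg D b b' y‖ = 1 := by rw [gg, norm_mul, norm_conj, tr_nrm, tr_nrm, one_mul]

theorem th_chg (hy : y ∈ D.O b ∩ D.O b') (a : ι) : th D e b' a y * gg D b b' y = th D e b a y := by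
  have k := tr_tr (D := D) (y := y) true
  cases b <;> cases b'
  · simp [gg_one]
  · rw [th, (D.chg hy _).1]
    simp only [gg, tr, cond, map_one, map_neg, map_pow, th] at k ⊢
    linear_combination lB (D.u false y) (dv I (e a) (D.u false) y) * k
  · rw [th, th, (D.chg ⟨hy.2, hy.1⟩ _).1]
    simp only [gg, tr, cond, map_neg, map_pow]
    ring
  · simp [gg_one]

section ov
variable (hy : y ∈ D.O false ∩ D.O true) (a : ι)
include hy

theorem mu_w : mu I e (D.w true) a y = mu I e (D.w false) a y +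
    4 * ‖D.w false y‖ ^ 2 * (mu I e (D.u false) a y - mu I e (D.u true) a y) := by
  have h1 : ‖(dir (D.u false y) : ℂ) ^ 4‖ = 1 := by rw [norm_pow, Circle.norm_coe, one_pow]
  have l : ∀ (u w : ℂ) d, lm w (lD (4 : ℕ) u w d) = lm w d.2 + 4 * ‖w‖ ^ 2 * lm u d.1 := fun u w d => by
    rw [lD, map_add, lm_apply w (_ * _), nsq]; simp; ring
  have := congrArg (lm (D.w true y)) (D.chg hy (e a)).2
  rw [l, D.nw hy] at this
  nth_rewrite 2 [D.tw y hy] at this
  rw [Circle.coe_pow, lm_unit h1, l] at this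
  rw [mu_eq ((D.ch _).sw y hy.1), mu_eq ((D.ch _).sw y hy.2), mu_eq ((D.ch _).su y hy.1),
    mu_eq ((D.ch _).su y hy.2)]
  linarith

theorem dv_eps : dv I (e a) (fun x => (dir (D.u false x) : ℂ)) y =
    (mu I e (D.u false) a y - mu I e (D.u true) a y : ℝ) * (Complex.I * dir (D.u false y)) := by
  have s1 := (D.ch _).su y hy.1
  have s2 := (D.ch _).su y hy.2
  have n1 := D.ne false y hy
  have n2 := D.ne true y hy
  have k1 := dv_dir s1 n1 (e a)
  have k2 := dv_dir s2 n2 (e a)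
  have ev : (fun x => (dir (D.u true x) : ℂ)) =ᶠ[𝓝 y] fun x => conjCLE (dir (D.u false x) : ℂ) :=
    (((D.ch _).op.inter (D.ch _).op).eventually_mem hy).mono fun x hx => by
      simp only [D.du x hx, Circle.coe_inv_eq_conj, conjCLE_apply]
  rw [dv_congr ev, show dv I (e a) (fun x => conjCLE (dir (D.u false x) : ℂ)) y = _ from
    dv_clm (conjCLE : ℂ →L[ℝ] ℂ) (sa_dir s1 n1).md, k1, D.du y hy, Circle.coe_inv_eq_conj] at k2
  have k3 : -(lm (D.u false y) (dv I (e a) (D.u false) y) / ‖D.u false y‖ ^ 2) =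
      lm (D.u true y) (dv I (e a) (D.u true) y) / ‖D.u true y‖ ^ 2 := by
    refine ofReal_injective (mul_right_cancel₀ (b := Complex.I * conj (dir (D.u false y) : ℂ))
      (by simp) (.trans ?_ k2))
    simp
  rw [k1, mu_eq s1, mu_eq s2]
  congr 2
  have := D.nrm y hy
  have m1 : ‖D.u false y‖ ^ 2 ≠ 0 := by simpa
  have m2 : ‖D.u true y‖ ^ 2 ≠ 0 := by simpa
  rw [eq_div_iff m2] at k3
  rw [← k3]
  field_simp
  linear_combination (-lm (D.u false y) (dv I (e a) (D.u false) y)) * this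

theorem pt_chg {c : ℝ} (hq : q (‖D.w false y‖ ^ 2) * ‖D.w false y‖ ^ 2 = ψ (‖D.w false y‖ ^ 2) / 4 + c) :
    pt D e ψ q true a y - pt D e ψ q false a y =
      4 * c * (mu I e (D.u false) a y - mu I e (D.u true) a y) := by
  rw [pt, pt, D.nw hy, mu_w hy]
  linear_combination 4 * (mu I e (D.u false) a y - mu I e (D.u true) a y) * hq

end ov

theorem sa_tr (hy : y ∈ D.O false ∩ D.O true) : SA I (tr D true) y :=
  have := sa_dir ((D.ch _).su y hy.1) (D.ne false y hy)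
  ((SA.mul this this).neg).congr_of_eventuallyEq (.of_forall fun x => by simp [tr, sq])

theorem sa_gg (hy : y ∈ D.O b ∩ D.O b') : SA I (gg D b b') y := by
  cases b <;> cases b'
  · rw [gg_one]; exact contMDiffAt_const
  · exact SA.mul (g := fun _ => conj 1) (sa_tr hy) contMDiffAt_const
  · exact SA.mul contMDiffAt_const (Pj41.FSm.star' (sa_tr ⟨hy.2, hy.1⟩))
  · rw [gg_one]; exact contMDiffAt_const

theorem dv_gg (hq : ∀ x ∈ xx D '' N, q x * x = ψ x / 4 + 1 / 2) (hy : y ∈ D.O b ∩ D.O b') (a : ι) :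
    dv I (e a) (gg D b b') y =
      (pt D e ψ q b' a y - pt D e ψ q b a y : ℝ) * (Complex.I * gg D b b' y) := by
  have k : ∀ hy : y ∈ D.O false ∩ D.O true, dv I (e a) (tr D true) y =
      (pt D e ψ q true a y - pt D e ψ q false a y : ℝ) * (Complex.I * tr D true y) := fun hy => by
    have s := sa_dir ((D.ch _).su y hy.1) (D.ne false y hy)
    rw [show tr D true = -fun x => (dir (D.u false x) : ℂ) * dir (D.u false x) from
      funext fun x => by simp [tr, sq], dv_neg, dv_mul s s, dv_eps hy, pt_chg hy a (hq _ (mem_R hy.1))]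
    simp only [Pi.neg_apply]
    push_cast
    ring
  cases b <;> cases b'
  · simp [gg_one]
  · rw [show gg D false true = tr D true from funext fun x => by simp [gg, tr], k hy]
  · rw [show gg D true false = fun x => conjCLE (tr D true x) from funext fun x => by simp [gg, tr],
      show dv I (e a) (fun x => conjCLE (tr D true x)) y = _ from
        dv_clm (conjCLE : ℂ →L[ℝ] ℂ) (sa_tr ⟨hy.2, hy.1⟩).md, k ⟨hy.2, hy.1⟩]
    simp; ring
  · simp [gg_one]

variable {P : ι → ι → M → ℝ} {c : ι → ι → ι → M → ℝ} (F : Frm I e P c) (hy : y ∈ D.O b)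
include F hy

theorem sa_pt (hψ : ContDiffAt ℝ ∞ ψ (‖D.w b y‖ ^ 2)) (hq : ContDiffAt ℝ ∞ q (‖D.w b y‖ ^ 2)) (a : ι) :
    SA I (pt D e ψ q b a) y :=
  have s := sa_nsq ((D.ch b).sw y hy)
  (SA.mul (hψ.comp_contMDiffAt (f := fun y => ‖D.w b y‖ ^ 2) s) (sa_mu F ((D.ch b).su y hy) a)).add
    (SA.mul (hq.comp_contMDiffAt (f := fun y => ‖D.w b y‖ ^ 2) s) (sa_mu F ((D.ch b).sw y hy) a))

omit hy in
theorem pr_pt (a : ι) : ∑ k, P a k y * pt D e ψ q b k y = pt D e ψ q b a y := by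
  simp only [pt, mul_add, Finset.sum_add_distrib, mul_left_comm (P a _ y), ← Finset.mul_sum, mu, pr_wd F]

omit F in
theorem pt_eq {k : ℝ} (h0 : D.w b y ≠ 0)
    (hq : q (‖D.w b y‖ ^ 2) * ‖D.w b y‖ ^ 2 = ψ (‖D.w b y‖ ^ 2) / 4 + k) (a : ι) : pt D e ψ q b a y =
      ψ (‖D.w b y‖ ^ 2) * sg1 I e (4 : ℕ) (D.u b) (D.w b) a y + k * nu I e (D.w b) a y := by
  have x0 : ‖D.w b y‖ ^ 2 ≠ 0 := by simpa
  rw [pt, sg1, nu, (eq_div_iff x0).2 hq]
  push_cast
  ring

theorem d1_pt {Pr : Prf 4} {h : ℝ → ℝ} {k ψ1 : ℝ} (h0 : D.w b y ≠ 0) (f0 : Pr.f (‖D.w b y‖ ^ 2) ≠ 0)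
    (hq : ∀ x ∈ xx D '' N, q x * x = ψ x / 4 + k) (sψ : ContDiffAt ℝ ∞ ψ (‖D.w b y‖ ^ 2))
    (dψ : HasDerivAt ψ (ψ1 * h (‖D.w b y‖ ^ 2)) (‖D.w b y‖ ^ 2)) (s t : ι) :
    d1 I e c (pt D e ψ q b) s t y = ψ1 / Pr.f (‖D.w b y‖ ^ 2) * wq (D.V Pr h e b · · y) 0 1 s t +
      2 * ψ (‖D.w b y‖ ^ 2) * wq (D.V Pr h e b · · y) 2 3 s t := by
  have C := D.ch b
  have sψ' := sψ.comp_contMDiffAt (f := fun y => ‖D.w b y‖ ^ 2) (sa_nsq (C.sw y hy))
  have sσ := sa_sg1 F (C.su y hy) (C.sw y hy) h0 (4 : ℕ)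
  have sν := sa_nu F (C.sw y hy) h0
  have ev : ∀ a, pt D e ψ q b a =ᶠ[𝓝 y] fun z =>
      ψ (‖D.w b z‖ ^ 2) * sg1 I e (4 : ℕ) (D.u b) (D.w b) a z + k * nu I e (D.w b) a z := fun a =>
    (C.off.op.eventually_mem ⟨hy, h0⟩).mono fun z hz => pt_eq hz.1 hz.2 (hq _ (mem_R hz.1)) a
  have k1 : d1 I e c (fun a z => ψ (‖D.w b z‖ ^ 2) * sg1 I e (4 : ℕ) (D.u b) (D.w b) a z
      + k * nu I e (D.w b) a z) s t y = _ :=
    d1_add (fun a => SA.mul sψ' (sσ a)) (fun a => SA.mul contMDiffAt_const (sν a)) _ _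
  rw [d1, dv_congr (ev _), dv_congr (ev _)]
  simp only [fun a => (ev a).self_of_nhds]
  refine (show _ = _ from k1).trans ?_
  rw [d1_mul sψ' sσ, d1_mul contMDiffAt_const sν, d1_nu F (C.sw y hy) h0,
    d1_sg1 F (C.su y hy) (C.lt y hy) (4 : ℕ) h Pr.f (C.sw y hy) h0]
  erw [dv_x (C.sw y hy) dψ, dv_x (C.sw y hy) dψ]
  simp only [wq, Dsc.V, vG, Matrix.cons_val, Function.comp, dv_const, Pi.zero_apply]
  field_simp
  ring

omit F in
theorem th_re (Pr : Prf 4) (h : ℝ → ℝ) (a : ι) : (th D e b a y).re = D.V Pr h e b 2 a y :=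
  (vG_eq ((D.ch b).su y hy) ((D.ch b).sw y hy) ((D.ch b).lt y hy) _ _ _ 2 a).symm

omit F in
theorem th_im (Pr : Prf 4) (h : ℝ → ℝ) (a : ι) : (th D e b a y).im = D.V Pr h e b 3 a y :=
  (vG_eq ((D.ch b).su y hy) ((D.ch b).sw y hy) ((D.ch b).lt y hy) _ _ _ 3 a).symm

theorem sa_V2 (Pr : Prf 4) (h : ℝ → ℝ) (a : ι) : SA I (D.V Pr h e b 2 a) y :=
  sa_wd F (sa_sq1 ((D.ch b).su y hy) ((D.ch b).lt y hy)) (Line51.fsm_re ((D.ch b).su y hy)) a

theorem sa_V3 (Pr : Prf 4) (h : ℝ → ℝ) (a : ι) : SA I (D.V Pr h e b 3 a) y :=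
  sa_wd F (sa_sq1 ((D.ch b).su y hy) ((D.ch b).lt y hy)) (Line51.fsm_im ((D.ch b).su y hy)) a

end Crest.Agent.X212.Lk34
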