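import Crest.Agent.X212.Lk34.Cur
import Crest.Agent.X212.Lk34.Eta
import Crest.Agent.X212.Lns95.Sw

/-!
# Row 212, LIX-KER (helper34), part Tci: the normal bundle of an abelian point of level `1/4`
-/

set_option autoImplicit false
set_option linter.unusedSectionVars false
noncomputable section
open Set Function Filter Topology MeasureTheory
open scoped ContDiff Manifold Real InnerProductSpace
open Crest.Agent.R208.F (Ext)

namespace Crest.Agent.X212.Lk34
open An Nd18 Sob92 Wz78 Lns95 Lix26 Num57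
open Qab60 (Ab)
open Abel74 (fm fF)
open M (Mf)

variable {E : Type} [NormedAddCommGroup E] [NormedSpace ℝ E] [FiniteDimensional ℝ E]
  [MeasurableSpace E] [BorelSpace E]
  {HM : Type} [TopologicalSpace HM] {I : ModelWithCorners ℝ E HM} [I.Boundaryless]
  {M : Type} [TopologicalSpace M] [ChartedSpace HM M] [IsManifold I ∞ M] [T2Space M]
  [MeasurableSpace M] [BorelSpace M] [SecondCountableTopology M]

section ab
variable {ι lam : Type} [Fintype ι] [Fintype lam] {B : Base M ι lam} {G : Geo I M ι lam}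
  {Ω : Set M} {r : ℕ} {c : Cfg M ι lam r} {ξ : M → c.m.A} {s : ℝ} {x : M}

variable (ξ s) in
/-- the complex structure of the normal bundle -/
def Jx (x : M) : CL c.m.A c.m.A := (-s / 2) • adc (opL (ξ x))

variable (ξ s) in
/-- the projector onto the normal bundle -/
def Qx (x : M) : CL c.m.A c.m.A := (-1 : ℝ) • (Jx ξ s x * Jx ξ s x * c.m.pg x)

variable (hB : B.OK I) (hG : G.OK B) (A : Ab B G Ω c ξ)
include hB hG A

/-- `Lns95.sl_of` with integrability on `Ω` only -/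
theorem sl_on (hΩ : IsClopen Ω) (ok : OK G.F B.o)
    (e : ∀ x ∈ Ω, c.m.p2 B x (c.m.Fg G.F c.W x) = 0)
    (i : IntegrableOn (c.m.kd B G.F c.W) Ω G.F.μ) (l : ∫ x in Ω, c.m.kd B G.F c.W x ∂G.F.μ = 1 / 4) :
    Sl B G Ω (fm G.F c.m c.W ξ) := by
  obtain ⟨-, h2, h3, h4⟩ := Qa50.addStmt I M ι lam r B G Ω c ξ hB hG hΩ A
  have a : ∀ x ∈ Ω, hs G.F B.o x (Qab60.c2 G.F (fm G.F c.m c.W ξ) x) = 0 := fun x hx => by
    have := A.rd.norm_p2 hB hG A.adm.ok A.adm.conn hx
    rw [e x hx, show Qab60.c2 G.F ((2 : ℝ) • fm G.F c.m c.W ξ) x =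
      (2 : ℝ) • Qab60.c2 G.F (fm G.F c.m c.W ξ) x from PiLp.ext fun s => k2_smul _ _ _ _ _,
      map_smul] at this
    simpa using this
  have k : ∀ x, ⟪Qab60.c2 G.F (fm G.F c.m c.W ξ) x, Qab60.st B.o x (Qab60.c2 G.F (fm G.F c.m c.W ξ) x)⟫_ℝ =
      Ω.indicator (fun x => -(8 * π ^ 2) * c.m.kd B G.F c.W x) x := fun x => by
    by_cases hx : x ∈ Ω
    · rw [indicator_of_mem hx, kd_ab hB hG A hx]; field_simp
    · rw [indicator_of_notMem hx, Qab60.c2_of_zero (h3.off x hx), inner_zero_left]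
  have n : ∀ x, ‖Qab60.c2 G.F (fm G.F c.m c.W ξ) x‖ ^ 2 =
      Ω.indicator (fun x => (8 * π ^ 2) * c.m.kd B G.F c.W x) x := fun x => by
    by_cases hx : x ∈ Ω
    · have := k x
      rw [Qab60.inner_st ok, a x hx, indicator_of_mem hx] at this
      rw [Qab60.norm_c2_sq ok, a x hx, indicator_of_mem hx]
      simp only [norm_zero] at this ⊢
      linarith
    · rw [indicator_of_notMem hx, Qab60.c2_of_zero (h3.off x hx), norm_zero, sq, mul_zero]
  refine ⟨h3, a, (memLp_two_iff_integrable_sq_norm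
    (Qab60.sm_c2 h3.fo.sm).continuous.aestronglyMeasurable).2 ?_, ?_⟩
  · simp only [n]
    exact (integrable_indicator_iff hΩ.isOpen.measurableSet).2 (i.const_mul _)
  · rw [Qab60.integ_mul ok h3.fo.dg]
    simp only [k]
    rw [integral_indicator hΩ.isOpen.measurableSet, integral_const_mul, l]
    ring

variable (ss : s * s = 1) (hx : x ∈ Ω)
include ss hx

theorem Qx_apply (v : c.m.A) : Qx ξ s x v = c.m.pg x v - (⟪ξ x, v⟫_ℝ / 16) • ξ x := by
  have h := A.rd.mem x hx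
  simp only [Qx, Jx, ContinuousLinearMap.smul_apply, mul_apply_eq_comp, map_smul, smul_smul,
    Std94.adc_adc hB (Std94.pmx A.adm.ok x) h (pg_mem x v),
    Abel74.norm_sq A.adm.ok h (A.rd.sq x hx), ← inner_pg, pg_of_mem h]
  match_scalars
  · linear_combination -⟪ξ x, v⟫_ℝ / 16 * ss
  · linear_combination ss

theorem Qx_iff {v : c.m.A} : Qx ξ s x v = v ↔ v ∈ c.m.gS x ∧ ⟪ξ x, v⟫_ℝ = 0 := by
  have h := A.rd.mem x hx
  rw [Qx_apply hB hG A ss hx]
  refine ⟨fun e => ⟨e ▸ sub_mem (pg_mem x v) (Submodule.smul_mem _ _ h), ?_⟩,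
    fun e => by rw [pg_of_mem e.1, e.2]; simp⟩
  rw [← e, inner_sub_right, real_inner_smul_right, real_inner_self_eq_norm_sq,
    Abel74.norm_sq A.adm.ok h (A.rd.sq x hx), ← inner_pg, pg_of_mem h]
  ring

theorem Qx_mem (v : c.m.A) : Qx ξ s x (Qx ξ s x v) = Qx ξ s x v := by
  have h := A.rd.mem x hx
  rw [Qx_iff hB hG A ss hx, Qx_apply hB hG A ss hx, inner_sub_right, real_inner_smul_right,
    real_inner_self_eq_norm_sq, Abel74.norm_sq A.adm.ok h (A.rd.sq x hx), ← inner_pg, pg_of_mem h]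
  exact ⟨sub_mem (pg_mem x v) (Submodule.smul_mem _ _ h), by ring⟩

theorem Qx_ne : ∃ v, v ≠ 0 ∧ Qx ξ s x v = v := by
  by_contra! k
  have : c.m.gS x ≤ ℝ ∙ ξ x := fun v hv => by
    have e : Qx ξ s x v = 0 := by_contra fun e => k _ e (Qx_mem hB hG A ss hx v)
    rw [Qx_apply hB hG A ss hx, pg_of_mem hv, sub_eq_zero] at e
    exact Submodule.mem_span_singleton.2 ⟨_, e.symm⟩
  have := (Submodule.finrank_mono this).trans (finrank_span_le_card (R := ℝ) {ξ x})
  rw [Std94.finrank_g hB (Std94.pmx A.adm.ok x)] at this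
  simp at this

omit hB hG ss in
theorem sa_Jx : SA I (Jx ξ s) x :=
  SA.smul contMDiffAt_const (SA.clm (adcL ∘L opL) (A.rd.sm x hx))

omit hB hG ss in
theorem n_Jx (a : ι) : nabE I G.F.e (c.m.adW c.W) a (Jx ξ s) x = 0 := by
  have p : nabE I G.F.e (c.m.adW c.W) a (fun x => adc (opL (ξ x))) x = 0 :=
    (nab_map (A := fun a y => ad _ (c.W a y)) (A' := fun a y => ad _ (c.m.adW c.W a y)) adcL a
      (adc_lie _ _).symm (A.rd.sm_opL hx)).trans ((congrArg adcL (A.rd.nE hx a)).trans (map_zero _))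
  unfold Jx
  rw [nabE_smul (T := fun x => adc (opL (ξ x))) a contMDiffAt_const
    (SA.clm (adcL ∘L opL) (A.rd.sm x hx)), p]
  simp

end ab

variable {Y : Mf 3} [CompactSpace Y.M] {κ : Type} [Fintype κ] {lam : Type} [Fintype lam]
  [DecidableEq lam] {D : YD Y.I Y.M κ (lam ⊕ lam)} {B : Base M (Option κ) (lam ⊕ lam)}
  {G : Geo I M (Option κ) (lam ⊕ lam)} {K : Nk D B G} {Ω : Set M} {d : Mdl K Ω}
  {g Q Φ : ℝ → ℝ} {n : ℕ} {c : Cfg M (Option κ) (lam ⊕ lam) n} {ξ : M → c.m.A}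

/-- **the normal bundle** -/
theorem tc (ok : d.OK) (r : Rf d.P d.h (xx d.Ds '' Ω) g Q Φ) (A : Ab B G Ω c ξ)
    (S : Sl B G Ω (fm G.F c.m c.W ξ)) : ∃ s, s * s = 1 ∧
      Lk34.Tc G.F Ω (c.m.adW c.W) (Qx ξ s) (Jx ξ s) d.Ds.O (a0 d g Q) (gg d.Ds) := by
  obtain ⟨s, ss, e⟩ := cur ok r S
  have hB := ok.mo.hB
  have hG := ok.mo.hG
  have H := A.adm.ok
  have C := A.adm.conn
  have q := fun x hx v => Qx_iff (x := x) (v := v) hB hG A ss hx
  have sJ := fun x hx => sa_Jx (s := s) (x := x) A hx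
  have sp := Std94.sm_pg hB H
  have sk : ∀ x ∈ Ω, Skew (Jx ξ s x) := fun x hx v w => by
    simp only [Jx, ContinuousLinearMap.smul_apply, real_inner_smul_left, real_inner_smul_right,
      adc_skw (g_skw (A.rd.mem x hx)) v w, mul_neg]
  refine ⟨s, ss, fun b => (d.Ds.ch b).op, d.Ds.cov, fun a x _ => (con_adW C).sm a x,
    fun a x _ => by rw [hG.P]; exact (con_adW C).proj a x, fun a x _ => adW_skw C a x,
    fun x hx => SA.smul contMDiffAt_const (SA.mul (SA.mul (sJ x hx) (sJ x hx)) (sp x)), sJ,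
    fun a x hx => ?_, fun a x hx => n_Jx A hx a, fun x hx => Qx_mem hB hG A ss hx,
    fun x hx v hv => (q x hx _).2 ⟨Submodule.smul_mem _ _ (adc_mem (A.rd.mem x hx) ((q x hx v).1 hv).1),
      ?_⟩, fun x hx v hv => ?_, sk, fun b a x hx => sa_a0 ok r hx a,
    fun b a x hx => by rw [hG.P]; exact pr_pt (gfrm hG) a, fun b a k x hx v hv => ?_,
    fun b b' x hx => sa_gg hx, fun b x _ => congrFun gg_one x, fun b b' x _ => gg_nrm,
    fun b b' b'' x _ => gg_coc, fun b b' a x hx => dv_gg (hq0 r) hx a⟩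
  · unfold Qx
    rw [nabE_smul a contMDiffAt_const (SA.mul (SA.mul (sJ x hx) (sJ x hx)) (sp x)),
      nabE_mul a (SA.mul (sJ x hx) (sJ x hx)) (sp x), nabE_mul a (sJ x hx) (sJ x hx), n_Jx A hx,
      pg_par H C sp]
    simp
  · rw [real_inner_comm, sk x hx]
    simp [Jx, adc_apply]
  · have := hv
    rw [Qx, ContinuousLinearMap.smul_apply, mul_apply_eq_comp, mul_apply_eq_comp,
      pg_of_mem ((q x hx v).1 hv).1, neg_one_smul, neg_eq_iff_eq_neg] at this
    exact this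
  · have hx' := d.Ds.sub b hx
    rw [curv_adW_g hB hG H C a k ((q x hx' v).1 hv).1, A.rd.Fg_eq hB hG H C hx', Jx,
      ContinuousLinearMap.smul_apply, smul_smul, map_smul, ← adcL_apply, map_smul, adcL_apply,
      ContinuousLinearMap.smul_apply, ← Abel74.k2_fm hG C]
    congr 1
    linarith [e b x hx a k]

end Crest.Agent.X212.Lk34
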